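import Vale.Agent.P046.Sharp.Top.Env
import Mathlib.Analysis.Complex.ExponentialBounds

/-!
P046: the exponential potential is a supermartingale on the window, so the state stays
pseudo-random with overwhelming probability.
-/

open Finset Filter

namespace Vale.Agent.P046.Sharp.Top

variable {α : Type*} [DecidableEq α] [Fintype α] {G : Finset (Finset α)} {Y E : ℝ}

/-- The lost common neighbours of `S`. -/
noncomputable def lost (G : Finset (Finset α)) (S t : Finset α) : ℝ :=
  ((com G S).card : ℝ) - (com (G \ sides t) S).card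

theorem com_sdiff (G : Finset (Finset α)) (S t : Finset α) :
    com (G \ sides t) S = (com G S).filter fun c => ∀ x ∈ S, ({x, c} : Finset α) ∉ sides t := by
  ext c
  simp only [com, mem_filter, mem_univ, true_and]
  exact ⟨fun h => ⟨fun x hx => (mem_sdiff.1 (h x hx)).1, fun x hx => (mem_sdiff.1 (h x hx)).2⟩,
    fun h x hx => mem_sdiff.2 ⟨h.1 x hx, h.2 x hx⟩⟩

theorem lost_eq (G : Finset (Finset α)) (S t : Finset α) :
    lost G S t = (((com G S).filter fun c => ∃ x ∈ S, ({x, c} : Finset α) ∈ sides t).card : ℝ) := by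
  have h := card_filter_add_card_filter_not (s := com G S)
    (fun c => ∀ x ∈ S, ({x, c} : Finset α) ∉ sides t)
  rw [lost, com_sdiff, ← h]
  push_cast
  simp only [not_forall, not_not, exists_prop]
  ring

theorem lost_range {t : Finset α} (ht : t ∈ tri G) (S : Finset α) :
    0 ≤ lost G S t ∧ lost G S t ≤ 3 := by
  rw [lost_eq]
  refine ⟨Nat.cast_nonneg _, ?_⟩
  have : ((com G S).filter fun c => ∃ x ∈ S, ({x, c} : Finset α) ∈ sides t) ⊆ t := fun c hc => by
    obtain ⟨x, -, hxc⟩ := (mem_filter.1 hc).2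
    exact (mem_powersetCard.1 hxc).1 (by simp)
  exact_mod_cast (card_le_card this).trans_eq (mem_tri.1 ht).1

/-- The mean loss of `S`, up to the pairs of `S`. -/
theorem sum_lost (hG : ∀ e ∈ G, e.card = 2) (S : Finset α) (hS : S.card ≤ 3) :
    ∑ t ∈ tri G, lost G S t ≤ ∑ c ∈ com G S, ∑ x ∈ S, (deg G {x, c} : ℝ) ∧
      ∑ c ∈ com G S, ∑ x ∈ S, (deg G {x, c} : ℝ) ≤
        ∑ t ∈ tri G, lost G S t + 3 * (com G S).card := by
  have e1 : ∑ t ∈ tri G, lost G S t = ∑ c ∈ com G S,
      (((tri G).filter fun t => ∃ x ∈ S, ({x, c} : Finset α) ∈ sides t).card : ℝ) := by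
    simp only [lost_eq, card_filter, Nat.cast_sum, Nat.cast_ite, Nat.cast_one, Nat.cast_zero]
    exact sum_comm
  rw [e1, show (3 : ℝ) * (com G S).card = ∑ _c ∈ com G S, (3 : ℝ) by simp [mul_comm],
    ← sum_add_distrib]
  refine ⟨sum_le_sum fun c hc => ?_, sum_le_sum fun c hc => ?_⟩
  · have : (tri G).filter (fun t => ∃ x ∈ S, ({x, c} : Finset α) ∈ sides t) ⊆
        S.biUnion fun x => (tri G).filter (({x, c} : Finset α) ∈ sides ·) := fun t ht => by
      obtain ⟨h1, x, hx, h2⟩ := mem_filter.1 ht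
      exact mem_biUnion.2 ⟨x, hx, mem_filter.2 ⟨h1, h2⟩⟩
    exact_mod_cast (card_le_card this).trans card_biUnion_le
  · have hcS := not_mem_com hG hc
    set U := (tri G).filter fun t => ∃ x ∈ S, ({x, c} : Finset α) ∈ sides t with hU
    have e2 : ∑ x ∈ S, deg G {x, c} =
        ∑ t ∈ U, (S.filter fun x => ({x, c} : Finset α) ∈ sides t).card := by
      simp only [deg, card_filter]
      rw [sum_comm]
      refine (sum_subset (filter_subset _ _) fun t ht hn => ?_).symm
      refine sum_eq_zero fun x hx => if_neg fun h => hn (mem_filter.2 ⟨ht, x, hx, h⟩)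
    have pt : ∀ t ∈ U, (S.filter fun x => ({x, c} : Finset α) ∈ sides t).card
        ≤ 1 + if c ∈ t ∧ t.erase c ⊆ S then 1 else 0 := by
      intro t ht
      obtain ⟨h1, x0, hx0, h2⟩ := mem_filter.1 ht
      have hct : c ∈ t := (mem_powersetCard.1 h2).1 (by simp)
      have hsub : (S.filter fun x => ({x, c} : Finset α) ∈ sides t) ⊆ t.erase c := fun x hx => by
        obtain ⟨hxS, hxt⟩ := mem_filter.1 hx
        exact mem_erase.2 ⟨fun e => hcS (e ▸ hxS), (mem_powersetCard.1 hxt).1 (by simp)⟩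
      have hcard : (t.erase c).card = 2 := by rw [card_erase_of_mem hct, (mem_tri.1 h1).1]
      have h3 := card_le_card hsub
      split_ifs with h
      · omega
      · by_contra hc'
        refine h ⟨hct, ?_⟩
        have := eq_of_subset_of_card_le hsub (by omega)
        exact this ▸ filter_subset _ _
    have cnt : (U.filter fun t => c ∈ t ∧ t.erase c ⊆ S).card ≤ 3 := by
      calc _ ≤ (S.powersetCard 2).card := by
            refine card_le_card_of_injOn (fun t => t.erase c) (fun t ht => ?_)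
              (fun a ha b hb hab => ?_)
            · obtain ⟨h1, h2, h3⟩ := mem_filter.1 ht
              exact mem_coe.2 (mem_powersetCard.2 ⟨h3,
                by rw [card_erase_of_mem h2, (mem_tri.1 (mem_filter.1 h1).1).1]⟩)
            · obtain ⟨-, h2, -⟩ := mem_filter.1 ha
              obtain ⟨-, h2', -⟩ := mem_filter.1 hb
              simp only at hab
              rw [← insert_erase h2, hab, insert_erase h2']
        _ ≤ 3 := by rw [card_powersetCard]; interval_cases S.card <;> decide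
    have key : ∑ x ∈ S, deg G {x, c} ≤ U.card + 3 := by
      rw [e2]
      refine (sum_le_sum pt).trans ?_
      rw [sum_add_distrib, sum_const, smul_eq_mul, mul_one, sum_boole, Nat.cast_id]
      omega
    exact_mod_cast key

/-- The two sides of the drift. -/
theorem drift_bounds (h : Nice G Y E) (hY : 0 ≤ Y) (S : Finset α) (hS : S.card ≤ 3) :
    |∑ t ∈ tri G, lost G S t - S.card * ((com G S).card : ℝ) * Y| ≤
      (com G S).card * (3 * E + 3) := by
  obtain ⟨h1, h2⟩ := sum_lost h.edges S hS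
  have hd : |∑ c ∈ com G S, ∑ x ∈ S, (deg G {x, c} : ℝ) - S.card * ((com G S).card : ℝ) * Y| ≤
      (com G S).card * (3 * E) := by
    rw [show (S.card : ℝ) * (com G S).card * Y = ∑ _c ∈ com G S, ∑ _x ∈ S, Y by simp; ring,
      ← sum_sub_distrib]
    refine (abs_sum_le_sum_abs _ _).trans ?_
    refine (sum_le_card_nsmul _ _ (3 * E) fun c hc => ?_).trans (by rw [nsmul_eq_mul])
    rw [← sum_sub_distrib]
    refine (abs_sum_le_sum_abs _ _).trans ?_
    have hE : S.Nonempty → 0 ≤ E := fun ⟨x, hx⟩ =>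
      (abs_nonneg _).trans (h.deg_dev hY ((mem_filter.1 hc).2 x hx))
    refine (sum_le_card_nsmul _ _ E fun x hx => h.deg_dev hY ((mem_filter.1 hc).2 x hx)).trans ?_
    rw [nsmul_eq_mul]
    rcases S.eq_empty_or_nonempty with rfl | hne
    · simp only [card_empty, Nat.cast_zero, zero_mul]
      rcases G.eq_empty_or_nonempty with hg | ⟨e, he⟩
      · have := h.dev {c} (by simp) (by simp)
        linarith [abs_nonneg (((com G {c}).card : ℝ) - pred (Fintype.card α) Y ({c} : Finset α).card)]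
      · linarith [(abs_nonneg _).trans (h.deg_dev hY he)]
    · exact mul_le_mul_of_nonneg_right (by exact_mod_cast hS) (hE hne)
  rw [abs_le] at hd ⊢
  constructor <;> linarith [(Nat.cast_nonneg (com G S).card : (0 : ℝ) ≤ _)]

/-- A pseudo-random graph has many triangles. -/
theorem many_tri (h : Nice G Y E) {N K : ℝ} (hN : N = Fintype.card α) (hN0 : 0 < N) (hK : 1 ≤ K)
    (hYK : N / K ≤ Y) (hYN : Y ≤ N) (hE : 2 * K * E ≤ N) :
    N ^ 3 ≤ 24 * K ^ 2 * triNum G := by
  have hY0 : 0 < Y := lt_of_lt_of_le (by positivity) hYK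
  have hYN' : N ≤ K * Y := by rw [div_le_iff₀ (by linarith)] at hYK; linarith
  have hdeg : ∀ e ∈ G, N / (2 * K) ≤ (deg G e : ℝ) := fun e he => by
    have := (abs_le.1 (h.deg_dev hY0.le he)).1
    rw [div_le_iff₀ (by positivity)]
    nlinarith
  have hcom : ∀ v : α, N / (2 * K) ≤ ((com G {v}).card : ℝ) := fun v => by
    have hv := (abs_le.1 (h.dev {v} (by simp) (by simp))).1
    rw [card_singleton, pred, pow_one, ← hN] at hv
    have hq : Y / N ≤ √(Y / N) :=
      Real.le_sqrt_of_sq_le (by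
        have h1 : Y / N ≤ 1 := (div_le_one hN0).2 hYN
        have h2 : 0 ≤ Y / N := by positivity
        nlinarith)
    have hm := mul_le_mul_of_nonneg_left hq hN0.le
    rw [mul_div_cancel₀ _ hN0.ne'] at hm
    rw [div_le_iff₀ (by positivity)]
    nlinarith
  have hm : N * (N / (2 * K)) ≤ 2 * (G.card : ℝ) := by
    have := com_edge_sum h.edges (fun _ => (1 : ℝ))
    simp only [sum_const, nsmul_one] at this
    rw [← this]
    refine le_trans ?_ (sum_le_sum fun v _ => hcom v)
    rw [sum_const, nsmul_eq_mul, card_univ, ← hN]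
  have hQ : (G.card : ℝ) * (N / (2 * K)) ≤ 3 * triNum G := by
    rw [triNum, ← sum_deg, ← nsmul_eq_mul, ← sum_const]
    exact sum_le_sum hdeg
  have := mul_le_mul_of_nonneg_right hm (show 0 ≤ N / (2 * K) by positivity)
  rw [show N * (N / (2 * K)) * (N / (2 * K)) = N ^ 3 / (4 * K ^ 2) by field_simp; ring,
    div_le_iff₀ (by positivity)] at this
  nlinarith

/-- Powers of `1/√(1+s)` to second order. -/
theorem shrink_bounds {s : ℝ} (hs : 0 ≤ s) (hs1 : s ≤ 1 / 100) {j : ℕ} (hj1 : 1 ≤ j) (hj : j ≤ 3) :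
    |1 - 1 / √(1 + s) ^ j - j * s / 2| ≤ 4 * s ^ 2 := by
  set a := 1 / √(1 + s) with ha
  have h1 : 0 < 1 + s := by linarith
  have ha0 : 0 ≤ a := by positivity
  have ha2 : a ^ 2 * (1 + s) = 1 := by
    rw [ha, div_pow, one_pow, Real.sq_sqrt h1.le]; field_simp
  have lo : 1 - s / 2 ≤ a := by
    by_contra hc
    push Not at hc
    have := mul_lt_mul_of_pos_right (pow_lt_pow_left₀ hc ha0 two_ne_zero) h1
    linarith [mul_nonneg (sq_nonneg s) (show 0 ≤ 3 - s by linarith),
      show (1 - s / 2) ^ 2 * (1 + s) = 1 - s ^ 2 * (3 - s) / 4 by ring]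
  have hi : a ≤ 1 - s / 2 + s ^ 2 := by
    by_contra hc
    push Not at hc
    have := mul_lt_mul_of_pos_right (pow_lt_pow_left₀ hc (by nlinarith) two_ne_zero) h1
    linarith [sq_nonneg s, pow_nonneg hs 3, pow_nonneg hs 5,
      show (1 - s / 2 + s ^ 2) ^ 2 * (1 + s) = 1 + 5 / 4 * s ^ 2 + 5 / 4 * s ^ 3 + s ^ 5 by ring]
  rw [show 1 / √(1 + s) ^ j = a ^ j by rw [ha, div_pow, one_pow]]
  have ha1 : a ≤ 1 := by nlinarith
  interval_cases j <;> push_cast <;> rw [abs_le] <;> constructor <;> nlinarith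

theorem pred_next (N : ℝ) {s : ℝ} (hs : 0 ≤ s) (Y : ℝ) (j : ℕ) :
    pred N (Y / (1 + s)) j = pred N Y j * (1 / √(1 + s) ^ j) := by
  rw [pred, pred, show Y / (1 + s) / N = Y / N / (1 + s) by rw [div_right_comm],
    Real.sqrt_div' _ (by linarith), div_pow]
  ring

theorem env_next (N κ : ℝ) {s : ℝ} (hN : 0 < N) (hY : 0 < Y) (hs : 0 ≤ s) :
    env N κ (Y / (1 + s)) = env N κ Y * (1 + s) ^ κ := by
  rw [env, env, show N / (Y / (1 + s)) = N / Y * (1 + s) by field_simp,
    Real.mul_rpow (by positivity) (by linarith), mul_assoc]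

/-- The requirements on the size of the ground set. -/
structure Large (N K κ : ℝ) : Prop where
  one : 1 ≤ N
  small : 2 * K * (N ^ (4 / 5 : ℝ) * K ^ κ) ≤ N
  step : 96 * K ^ 2 * (1 + κ) ≤ √N
  sharp : 4 * lam N ≤ N ^ (4 / 5 : ℝ)
  noise : 38 * (lam N * N) ≤ (N ^ (4 / 5 : ℝ)) ^ 2
  lam_one : 1 ≤ lam N
  pay : 48 * K ^ 2 * (N + 1) ^ 7 * Real.exp (1 - lam N / 2) ≤ tiny N

/-- The size of one step. -/
theorem step_small {N K κ s Q : ℝ} (hL : Large N K κ) (hK : 1 ≤ K) (hκ : κ = 12 * K) (hY0 : 0 < Y)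
    (hYN : Y ≤ N) (hQ : N ^ 3 ≤ 24 * K ^ 2 * Q) (hsQ : s * Q = 2 * Y) :
    0 < Q ∧ 0 ≤ s ∧ s ≤ 1 / 100 ∧ κ * s ≤ 1 / 2 ∧ 2 * N * s * (1 + κ) * √N ≤ 1 ∧
      s * N ^ 2 ≤ 48 * K ^ 2 ∧ 384 * K ^ 2 ≤ N := by
  have hN0 : 0 < N := by linarith [hL.one]
  have hQ0 : 0 < Q :=
    pos_of_mul_pos_right (lt_of_lt_of_le (pow_pos hN0 3) hQ) (by positivity)
  have hs0 : 0 ≤ s := nonneg_of_mul_nonneg_left (by linarith : 0 ≤ s * Q) hQ0
  have hsN : s * N ^ 2 ≤ 48 * K ^ 2 := by
    refine le_of_mul_le_mul_right ?_ hN0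
    calc s * N ^ 2 * N = s * N ^ 3 := by ring
      _ ≤ s * (24 * K ^ 2 * Q) := mul_le_mul_of_nonneg_left hQ hs0
      _ = 48 * K ^ 2 * Y := by linear_combination 24 * K ^ 2 * hsQ
      _ ≤ 48 * K ^ 2 * N := mul_le_mul_of_nonneg_left hYN (by positivity)
  have hsq1 : 1 ≤ √N := Real.one_le_sqrt.2 hL.one
  have hsqN : √N ≤ N := by
    nth_rewrite 2 [← Real.mul_self_sqrt hN0.le]
    exact le_mul_of_one_le_left (by positivity) hsq1
  have hκ12 : 12 ≤ κ := by linarith
  have huN : 2 * N * s * (1 + κ) * √N ≤ 1 := by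
    refine le_of_mul_le_mul_right ?_ (lt_of_lt_of_le one_pos hsq1)
    calc 2 * N * s * (1 + κ) * √N * √N = 2 * (s * N ^ 2) * (1 + κ) := by
          linear_combination 2 * N * s * (1 + κ) * Real.mul_self_sqrt hN0.le
      _ ≤ 96 * K ^ 2 * (1 + κ) :=
          mul_le_mul_of_nonneg_right (by linarith) (by linarith)
      _ ≤ 1 * √N := by linarith [hL.step]
  have hu1 : 2 * N * s * (1 + κ) ≤ 1 :=
    (le_mul_of_one_le_right (by positivity) hsq1).trans huN
  have hK2 : 1 ≤ K ^ 2 := one_le_pow₀ hK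
  have hbig : 384 * K ^ 2 ≤ N := by
    have : 96 * K ^ 2 * 4 ≤ 96 * K ^ 2 * (1 + κ) :=
      mul_le_mul_of_nonneg_left (by linarith) (by positivity)
    linarith [hL.step]
  have h1 : 100 * s ≤ N * (1 + κ) * s :=
    mul_le_mul_of_nonneg_right (le_trans (by linarith) (le_mul_of_one_le_right hN0.le
      (by linarith))) hs0
  have h2 : κ * s ≤ N * (1 + κ) * s :=
    mul_le_mul_of_nonneg_right (le_trans (by linarith) (le_mul_of_one_le_left (by linarith)
      hL.one)) hs0
  exact ⟨hQ0, hs0, by linarith, by linarith, huN, hsN, hbig⟩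

/-- The growth of the envelope in one step. -/
theorem growth {κ s : ℝ} (hκ : 1 ≤ κ) (hs : 0 ≤ s) (h : κ * s ≤ 1 / 2) :
    1 + κ * s ≤ (1 + s) ^ κ ∧ (1 + s) ^ κ ≤ 1 + 2 * (κ * s) := by
  refine ⟨one_add_mul_self_le_rpow_one_add (by linarith) hκ, ?_⟩
  have hκs : 0 ≤ κ * s := by positivity
  have h1 : (1 + s) ^ κ ≤ Real.exp (κ * s) := by
    rw [mul_comm, Real.exp_mul]
    refine Real.rpow_le_rpow (by linarith) ?_ (by linarith)
    linarith [Real.add_one_le_exp s]
  have h2 := (abs_le.1 (Real.abs_exp_sub_one_le (x := κ * s)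
    (by rw [abs_of_nonneg hκs]; linarith))).2
  rw [abs_of_nonneg hκs] at h2
  linarith

/-- The shrinking of the prediction in one step. -/
theorem shift_bounds {N K s Q P b : ℝ} {j : ℕ} (hN0 : 0 < N) (hs0 : 0 ≤ s) (hs1 : s ≤ 1 / 100)
    (hQ0 : 0 ≤ Q) (hsQ : s * Q = 2 * Y) (hYN : Y ≤ N) (hP0 : 0 ≤ P) (hPN : P ≤ N)
    (hj : j ≤ 3) (hb : |1 - b - j * s / 2| ≤ 4 * s ^ 2) (hsN : s * N ^ 2 ≤ 48 * K ^ 2)
    (hbig : 384 * K ^ 2 ≤ N) :
    |Q * (P * (1 - b)) - j * P * Y| ≤ N ∧ |P * (1 - b)| ≤ 2 * N * s := by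
  have hj3 : (j : ℝ) * s ≤ 3 * s := mul_le_mul_of_nonneg_right (by exact_mod_cast hj) hs0
  constructor
  · have e : Q * (P * (1 - b)) - j * P * Y = Q * P * (1 - b - j * s / 2) := by
      linear_combination (j * P / 2) * hsQ
    rw [e, abs_mul, abs_of_nonneg (mul_nonneg hQ0 hP0)]
    refine (mul_le_mul_of_nonneg_left hb (mul_nonneg hQ0 hP0)).trans ?_
    calc Q * P * (4 * s ^ 2) = 8 * Y * (s * P) := by linear_combination 4 * P * s * hsQ
      _ ≤ 8 * N * (s * N) := mul_le_mul (by linarith) (mul_le_mul_of_nonneg_left hPN hs0)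
          (mul_nonneg hs0 hP0) (by linarith)
      _ = 8 * (s * N ^ 2) := by ring
      _ ≤ N := by linarith
  · rw [abs_mul, abs_of_nonneg hP0, show 2 * N * s = N * (2 * s) by ring]
    refine mul_le_mul hPN ?_ (abs_nonneg _) hN0.le
    have hs2 : s ^ 2 ≤ 1 / 100 * s := by rw [pow_two]; exact mul_le_mul_of_nonneg_right hs1 hs0
    have hj0 : 0 ≤ (j : ℝ) * s := by positivity
    rw [abs_le] at hb ⊢
    constructor <;> linarith

/-- The drift pushes a large deviation back. -/
theorem drift_neg {σ SL X P Pb r E N K κ Q g : ℝ} {j : ℕ} (hσ : |σ| = 1) (hr : 1 / 2 ≤ σ * r)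
    (hE : 4 ≤ E) (hN : 0 ≤ N) (hX : X ≤ N) (hXe : X = P + r * E) (hYK : N ≤ K * Y)
    (hκ : κ = 12 * K) (hY : 0 ≤ Y) (hD : |SL - j * X * Y| ≤ X * (3 * E + 3))
    (hc : |Q * Pb - j * P * Y| ≤ N) (hQg : 2 * κ * Y ≤ Q * (g - 1)) :
    σ * (-SL + Q * Pb - Q * (r * E * (g - 1))) ≤ -(2 * N * E) := by
  rw [show σ * (-SL + Q * Pb - Q * (r * E * (g - 1))) =
    σ * (-(SL - j * X * Y) + (Q * Pb - j * P * Y)) - (σ * r) * E * (j * Y + Q * (g - 1)) by
    rw [hXe]; ring]
  have herr : |σ * (-(SL - j * X * Y) + (Q * Pb - j * P * Y))| ≤ X * (3 * E + 3) + N := by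
    rw [abs_mul, hσ, one_mul]
    refine (abs_add_le _ _).trans (add_le_add ?_ hc)
    rwa [abs_neg]
  have hjY : 0 ≤ (j : ℝ) * Y := by positivity
  have h6 : 12 * N * E ≤ (σ * r) * E * (j * Y + Q * (g - 1)) := by
    calc 12 * N * E ≤ 12 * (K * Y) * E :=
          mul_le_mul_of_nonneg_right (by linarith) (by linarith)
      _ = 1 / 2 * E * (2 * κ * Y) := by rw [hκ]; ring
      _ ≤ 1 / 2 * E * (j * Y + Q * (g - 1)) :=
          mul_le_mul_of_nonneg_left (by linarith) (by linarith)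
      _ ≤ _ := by
          refine mul_le_mul_of_nonneg_right (mul_le_mul_of_nonneg_right hr (by linarith)) ?_
          have : 0 ≤ K * Y := le_trans hN hYK
          have e : κ * Y = 12 * (K * Y) := by rw [hκ]; ring
          linarith
  have h7 : X * (3 * E + 3) ≤ N * (3 * E + 3) := mul_le_mul_of_nonneg_right hX (by linarith)
  have h8 : N * 4 ≤ N * E := mul_le_mul_of_nonneg_left hE hN
  linarith [(abs_le.1 herr).2]

/-- Small steps with negative mean do not increase an exponential on average. -/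
theorem exp_sum_le {ι : Type*} (T : Finset ι) (f : ι → ℝ) {L N : ℝ} (hL : 0 ≤ L)
    (h1 : ∀ t ∈ T, |L * f t| ≤ 1) (h2 : ∑ t ∈ T, f t ≤ -N) (h3 : L * ∑ t ∈ T, f t ^ 2 ≤ N) :
    ∑ t ∈ T, Real.exp (L * f t) ≤ T.card := by
  have hq : ∀ t ∈ T, Real.exp (L * f t) ≤ 1 + L * f t + L * (L * f t ^ 2) := fun t ht => by
    have := (abs_le.1 (Real.abs_exp_sub_one_sub_id_le (h1 t ht))).2
    linarith [show (L * f t) ^ 2 = L * (L * f t ^ 2) by ring]
  refine (sum_le_sum hq).trans ?_
  rw [sum_add_distrib, sum_add_distrib, sum_const, nsmul_one, ← mul_sum, ← mul_sum, ← mul_sum]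
  have h4 := mul_le_mul_of_nonneg_left h3 hL
  have h5 := mul_le_mul_of_nonneg_left h2 hL
  linarith

/-- One deviation, one sign. -/
theorem signed_step {N K κ s : ℝ} {S : Finset α} {σ : ℝ} (hσ : σ = 1 ∨ σ = -1)
    (hN : N = Fintype.card α) (hL : Large N K κ) (hK : 1 ≤ K) (hκ : κ = 12 * K)
    (hYK : N / K ≤ Y) (hYN : Y ≤ N) (h : Nice G Y (env N κ Y)) (hs : s = drop G Y)
    (hS1 : 1 ≤ S.card) (hS : S.card ≤ 3) :
    ∑ t ∈ tri G, Real.exp (lam N * (σ * rdev (G \ sides t) κ (nextY G Y) S - 1)) ≤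
      triNum G * Real.exp (lam N * (σ * rdev G κ Y S - 1))
        + triNum G * Real.exp (1 - lam N / 2) := by
  have hN1 := hL.one
  have hlam := hL.lam_one
  have hN0 : 0 < N := by linarith
  have hκ1 : 1 ≤ κ := by linarith
  have hσ1 : |σ| = 1 := by rcases hσ with rfl | rfl <;> simp
  have hY0 : 0 < Y := lt_of_lt_of_le (by positivity) hYK
  have hYK' : N ≤ K * Y := by rw [div_le_iff₀ (by linarith)] at hYK; linarith
  set E := env N κ Y with hE
  have hNY : N / Y ≤ K := by rw [div_le_iff₀ hY0]; linarith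
  have hE4 : N ^ (4 / 5 : ℝ) ≤ E := by
    rw [hE, env]
    exact le_mul_of_one_le_right (by positivity)
      (Real.one_le_rpow (by rw [le_div_iff₀ hY0]; linarith) (by linarith))
  have hEhi : 2 * K * E ≤ N := by
    refine le_trans ?_ hL.small
    rw [hE, env]
    exact mul_le_mul_of_nonneg_left (mul_le_mul_of_nonneg_left
      (Real.rpow_le_rpow (by positivity) hNY (by linarith)) (by positivity)) (by positivity)
  have hE0 : 0 < E := lt_of_lt_of_le (by positivity) hE4
  have hE1 : 4 ≤ E := by linarith [hL.sharp]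
  have hEN : 2 * E ≤ N :=
    le_trans (mul_le_mul_of_nonneg_right (by linarith) hE0.le) hEhi
  set Q := triNum G with hQ
  have hsQ : s * Q = 2 * Y := by
    have hQ0 : 0 < Q := pos_of_mul_pos_right
      (lt_of_lt_of_le (pow_pos hN0 3) (many_tri h hN hN0 hK hYK hYN hEhi)) (by positivity)
    rw [hs, drop, div_mul_cancel₀ _ hQ0.ne']
  obtain ⟨hQ0, hs0, hs100, hs1, huN, hsN, hbig⟩ :=
    step_small hL hK hκ hY0 hYN (many_tri h hN hN0 hK hYK hYN hEhi) hsQ
  set u := 2 * N * s * (1 + κ) with hu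
  have hu0 : 0 ≤ u := by rw [hu]; positivity
  have hu1 : u ≤ 1 := (le_mul_of_one_le_right hu0 (Real.one_le_sqrt.2 hN1)).trans huN
  set g := (1 + s) ^ κ with hg
  obtain ⟨hg1, hg2⟩ := growth hκ1 hs0 hs1
  rw [← hg] at hg1 hg2
  have hκs : 0 ≤ κ * s := mul_nonneg (by linarith) hs0
  set X := ((com G S).card : ℝ) with hX
  have hXN : X ≤ N := by rw [hX, hN]; exact_mod_cast card_le_univ _
  set j : ℕ := S.card with hj
  set P := pred N Y j with hP
  have hP0 : 0 ≤ P := by rw [hP, pred]; positivity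
  have hPN : P ≤ N := by
    rw [hP, pred]
    exact mul_le_of_le_one_right hN0.le
      (pow_le_one₀ (Real.sqrt_nonneg _) (Real.sqrt_le_one.2 ((div_le_one hN0).2 hYN)))
  set r := rdev G κ Y S with hr
  have hXP : X = P + r * E := by
    rw [hr, rdev, ← hN, ← hE, ← hP, ← hX, div_mul_cancel₀ _ hE0.ne']; ring
  have hr1 : |r| ≤ 1 := by
    have := h.dev S hS1 hS
    rw [← hN, ← hP, ← hX, hXP, add_sub_cancel_left, abs_mul, abs_of_pos hE0] at this
    exact le_of_mul_le_mul_right (by linarith) hE0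
  set b := 1 / √(1 + s) ^ j with hb
  have hsb := shrink_bounds hs0 hs100 hS1 hS
  rw [← hb] at hsb
  obtain ⟨hc2, hPb⟩ :=
    shift_bounds hN0 hs0 hs100 hQ0.le hsQ hYN hP0 hPN hS hsb hsN hbig
  set δ : Finset α → ℝ := fun t => rdev (G \ sides t) κ (nextY G Y) S - r with hδ
  have hδeq : ∀ t ∈ tri G, g * E * δ t = -lost G S t + P * (1 - b) - r * E * (g - 1) := by
    intro t _
    simp only [hδ]
    rw [rdev, nextY, ← hs, ← hN, pred_next _ hs0, env_next _ _ hN0 hY0 hs0, ← hE, ← hg,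
      ← hb, ← hP, mul_sub, show g * E * ((((com (G \ sides t) S).card : ℝ) - P * b) / (E * g)) =
        ((com (G \ sides t) S).card : ℝ) - P * b by
          rw [mul_comm E g, mul_div_cancel₀ _ (mul_pos (show 0 < g by linarith) hE0).ne']]
    rw [lost, ← hX, hXP]
    ring
  have hmove : ∀ t ∈ tri G, |δ t| * E ≤ lost G S t + u := by
    intro t ht
    have h1 : |g * E * δ t| ≤ lost G S t + u := by
      rw [hδeq t ht]
      have h2 : |r * E * (g - 1)| ≤ N * (2 * (κ * s)) := by
        rw [abs_mul, abs_mul, abs_of_pos hE0, abs_of_nonneg (show 0 ≤ g - 1 by linarith)]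
        refine mul_le_mul ?_ (by linarith) (by linarith) hN0.le
        exact (mul_le_mul_of_nonneg_right hr1 hE0.le).trans (by linarith)
      obtain ⟨a1, a2⟩ := abs_le.1 h2
      obtain ⟨a3, a4⟩ := abs_le.1 hPb
      have := (lost_range ht S).1
      have e : u = 2 * N * s + N * (2 * (κ * s)) := by rw [hu]; ring
      rw [abs_le]
      constructor <;> linarith
    refine le_trans ?_ h1
    rw [abs_mul, abs_mul, abs_of_pos hE0, abs_of_pos (show 0 < g by linarith), mul_comm |δ t| E]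
    exact mul_le_mul_of_nonneg_right (le_mul_of_one_le_left hE0.le (by linarith)) (abs_nonneg _)
  have hL1 : ∀ t ∈ tri G, |lam N * (σ * δ t)| ≤ 1 := by
    intro t ht
    rw [abs_mul, abs_of_pos (show 0 < lam N by linarith), abs_mul, hσ1, one_mul]
    refine le_of_mul_le_mul_right ?_ hE0
    calc lam N * |δ t| * E = lam N * (|δ t| * E) := by ring
      _ ≤ lam N * 4 := mul_le_mul_of_nonneg_left
          (by linarith [hmove t ht, (lost_range ht S).2]) (by linarith)
      _ ≤ 1 * E := by linarith [hL.sharp]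
  have hexp : ∀ t, Real.exp (lam N * (σ * rdev (G \ sides t) κ (nextY G Y) S - 1)) =
      Real.exp (lam N * (σ * r - 1)) * Real.exp (lam N * (σ * δ t)) := fun t => by
    rw [← Real.exp_add]; congr 1; simp only [hδ]; ring
  simp only [hexp, ← mul_sum]
  rcases le_or_gt (σ * r) (1 / 2) with hsmall | hlarge
  · have h1 : Real.exp (lam N * (σ * r - 1)) * ∑ t ∈ tri G, Real.exp (lam N * (σ * δ t))
        ≤ Q * Real.exp (1 - lam N / 2) := by
      rw [mul_sum, hQ, triNum, ← nsmul_eq_mul, ← sum_const]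
      refine sum_le_sum fun t ht => ?_
      rw [← Real.exp_add]
      refine Real.exp_le_exp.2 ?_
      have := (abs_le.1 (hL1 t ht)).2
      have : lam N * (σ * r - 1) ≤ lam N * (-(1 / 2)) :=
        mul_le_mul_of_nonneg_left (by linarith) (by linarith)
      linarith
    linarith [mul_nonneg hQ0.le (Real.exp_pos (lam N * (σ * r - 1))).le]
  refine le_add_of_le_of_nonneg ?_ (mul_nonneg hQ0.le (Real.exp_pos _).le)
  rw [mul_comm Q]
  refine mul_le_mul_of_nonneg_left ?_ (Real.exp_pos _).le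
  have hD := drift_bounds h hY0.le S hS
  rw [← hX, ← hj] at hD
  have hQg : 2 * κ * Y ≤ Q * (g - 1) := by
    calc 2 * κ * Y = Q * (κ * s) := by linear_combination -κ * hsQ
      _ ≤ _ := mul_le_mul_of_nonneg_left (by linarith) hQ0.le
  have hsum : ∑ t ∈ tri G, g * E * δ t = -(∑ t ∈ tri G, lost G S t) + Q * (P * (1 - b))
      - Q * (r * E * (g - 1)) := by
    rw [sum_congr rfl hδeq, sum_sub_distrib, sum_add_distrib, sum_neg_distrib, sum_const, sum_const,
      nsmul_eq_mul, nsmul_eq_mul]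
    rfl
  have hneg := drift_neg hσ1 hlarge.le hE1 hN0.le hXN hXP hYK' hκ hY0.le hD hc2 hQg
  rw [← hsum, ← mul_sum] at hneg
  have hfirst : ∑ t ∈ tri G, σ * δ t ≤ -N := by
    rw [← mul_sum]
    by_contra hc
    push Not at hc
    have h1 := mul_lt_mul_of_pos_left hc (mul_pos (show 0 < g by linarith) hE0)
    have h2 : g * (E * N) ≤ 2 * (E * N) :=
      mul_le_mul_of_nonneg_right (by linarith) (by positivity)
    linarith
  have hu2 : Q * u ^ 2 ≤ N ^ 2 := by
    have hQN : Q ≤ N ^ 3 := by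
      rw [hQ, triNum, hN]
      have h1 : (tri G).card ≤ (Fintype.card α) ^ 3 := by
        refine (card_le_card (filter_subset _ _)).trans ?_
        rw [card_powersetCard, card_univ]
        exact Nat.choose_le_pow _ _
      exact_mod_cast h1
    calc Q * u ^ 2 ≤ N ^ 3 * u ^ 2 := mul_le_mul_of_nonneg_right hQN (sq_nonneg u)
      _ = N ^ 2 * (u * √N) ^ 2 := by linear_combination -(N ^ 2 * u ^ 2) * Real.sq_sqrt hN0.le
      _ ≤ N ^ 2 * 1 :=
          mul_le_mul_of_nonneg_left (pow_le_one₀ (by positivity) huN) (by positivity)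
      _ = _ := mul_one _
  have hsecond : ∑ t ∈ tri G, (σ * δ t) ^ 2 * E ^ 2 ≤ 38 * N ^ 2 := by
    have h1 : ∀ t ∈ tri G, (σ * δ t) ^ 2 * E ^ 2 ≤ 6 * lost G S t + 2 * u ^ 2 := fun t ht => by
      obtain ⟨a, a'⟩ := lost_range ht S
      calc (σ * δ t) ^ 2 * E ^ 2 = (|σ * δ t| * E) ^ 2 := by rw [mul_pow |σ * δ t|, sq_abs]
        _ ≤ (lost G S t + u) ^ 2 := by
            rw [abs_mul, hσ1, one_mul]
            exact pow_le_pow_left₀ (by positivity) (hmove t ht) 2
        _ ≤ _ := by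
            linarith [sq_nonneg (lost G S t - u), mul_le_mul_of_nonneg_left a' a,
              show (lost G S t + u) ^ 2 + (lost G S t - u) ^ 2 =
                2 * (lost G S t * lost G S t) + 2 * u ^ 2 by ring]
    refine (sum_le_sum h1).trans ?_
    rw [sum_add_distrib, ← mul_sum, sum_const, nsmul_eq_mul]
    change _ + Q * _ ≤ _
    have hjXY : (j : ℝ) * X * Y ≤ 3 * N * N :=
      mul_le_mul (mul_le_mul (by exact_mod_cast hS) hXN (Nat.cast_nonneg _) (by norm_num)) hYN
        hY0.le (by positivity)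
    have h3 : X * (3 * E + 3) ≤ N * (2 * N) :=
      mul_le_mul hXN (by linarith) (by linarith) hN0.le
    have h4 := (abs_le.1 hD).2
    generalize ∑ t ∈ tri G, lost G S t = SL at h4 ⊢
    generalize (j : ℝ) * X * Y = A at h4 hjXY
    generalize X * (3 * E + 3) = B at h4 h3
    linarith [sq_nonneg N]
  rw [hQ, triNum]
  refine exp_sum_le _ _ (by linarith) hL1 hfirst ?_
  refine le_of_mul_le_mul_right ?_ (show 0 < E ^ 2 by positivity)
  rw [← sum_mul] at hsecond
  calc lam N * (∑ t ∈ tri G, (σ * δ t) ^ 2) * E ^ 2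
      = lam N * ((∑ t ∈ tri G, (σ * δ t) ^ 2) * E ^ 2) := mul_assoc _ _ _
    _ ≤ lam N * (38 * N ^ 2) := mul_le_mul_of_nonneg_left hsecond (by linarith)
    _ = N * (38 * (lam N * N)) := by ring
    _ ≤ N * (N ^ (4 / 5 : ℝ)) ^ 2 := mul_le_mul_of_nonneg_left hL.noise hN0.le
    _ ≤ N * E ^ 2 :=
        mul_le_mul_of_nonneg_left (pow_le_pow_left₀ (by positivity) hE4 2) hN0.le

theorem exit_step {K κ : ℝ} (hL : Large (Fintype.card α) K κ) (hK : 1 ≤ K) (hκ : κ = 12 * K)
    (hYK : (Fintype.card α : ℝ) / K ≤ Y) (hYN : Y ≤ Fintype.card α) (h : exitPot κ G Y < 1) :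
    ∑ t ∈ tri G, exitPot κ (G \ sides t) (nextY G Y) ≤ triNum G * exitPot κ G Y := by
  set N := (Fintype.card α : ℝ) with hN
  have hN0 : 0 < N := by linarith [hL.one]
  have hY0 : 0 < Y := lt_of_lt_of_le (by positivity) hYK
  have hn := nice_of_exitPot_lt hY0 hN0 h
  have he := hn.edges
  rcases (tri G).eq_empty_or_nonempty with h0 | hne
  · simp [h0, triNum]
  have hQ0 : 0 < triNum G := by rw [triNum]; exact_mod_cast card_pos.2 hne
  have he' : ∀ t, ∀ e ∈ G \ sides t, e.card = 2 := fun t e het => he e (mem_sdiff.1 het).1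
  simp only [exitPot, if_pos he, if_pos (he' _)]
  set s := drop G Y with hs
  set 𝒮 := univ.filter fun S : Finset α => 1 ≤ S.card ∧ S.card ≤ 3 with h𝒮
  set err := Real.exp (1 - lam N / 2) with herr
  rw [sum_add_distrib, sum_comm, sum_const, nsmul_eq_mul, mul_add, mul_sum]
  have hmain : ∀ S ∈ 𝒮, ∑ t ∈ tri G,
      (Real.exp (lam N * (rdev (G \ sides t) κ (nextY G Y) S - 1)) +
        Real.exp (lam N * (-rdev (G \ sides t) κ (nextY G Y) S - 1))) ≤
      triNum G * (Real.exp (lam N * (rdev G κ Y S - 1)) +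
        Real.exp (lam N * (-rdev G κ Y S - 1))) + 2 * (triNum G * err) := by
    intro S hS
    obtain ⟨h1, h2⟩ := (mem_filter.1 hS).2
    have p := signed_step (σ := 1) (Or.inl rfl) hN hL hK hκ hYK hYN hn hs h1 h2
    have q := signed_step (σ := -1) (Or.inr rfl) hN hL hK hκ hYK hYN hn hs h1 h2
    simp only [one_mul, neg_one_mul] at p q
    rw [sum_add_distrib]
    linarith
  refine le_trans (add_le_add (sum_le_sum hmain) le_rfl) ?_
  rw [sum_add_distrib, sum_const, nsmul_eq_mul]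
  have hcard : (𝒮.card : ℝ) ≤ 3 * (N + 1) ^ 3 := by
    have h1 : 𝒮.card ≤ ∑ i ∈ ({1, 2, 3} : Finset ℕ), (univ.powersetCard i : Finset (Finset α)).card := by
      refine le_trans (card_le_card fun S hS => ?_) card_biUnion_le
      obtain ⟨h1, h2⟩ := (mem_filter.1 hS).2
      refine mem_biUnion.2 ⟨S.card, ?_, mem_powersetCard.2 ⟨subset_univ S, rfl⟩⟩
      simp only [mem_insert, mem_singleton]; omega
    have h2 : 𝒮.card ≤ 3 * (Fintype.card α + 1) ^ 3 := by
      refine h1.trans (le_trans (sum_le_card_nsmul _ _ ((Fintype.card α + 1) ^ 3) fun i hi => ?_) ?_)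
      · rw [card_powersetCard, card_univ]
        refine (Nat.choose_le_pow _ _).trans ?_
        refine (Nat.pow_le_pow_left (Nat.le_succ _) i).trans (Nat.pow_le_pow_right (Nat.succ_pos _) ?_)
        simp only [mem_insert, mem_singleton] at hi; omega
      · simp
    rw [hN]; exact_mod_cast h2
  have hQN : triNum G ≤ (N + 1) ^ 3 := by
    have h1 : (tri G).card ≤ (Fintype.card α + 1) ^ 3 := by
      refine (card_le_card (filter_subset _ _)).trans ?_
      rw [card_powersetCard, card_univ]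
      exact (Nat.choose_le_pow _ _).trans (Nat.pow_le_pow_left (Nat.le_succ _) 3)
    rw [hN, triNum]; exact_mod_cast h1
  have hY' : nextY G Y ≤ Y * (1 - s / 2) := by
    have hQ := many_tri hn hN hN0 hK hYK hYN (by
      refine le_trans ?_ hL.small
      rw [env, hN]
      refine mul_le_mul_of_nonneg_left (mul_le_mul_of_nonneg_left
        (Real.rpow_le_rpow (by positivity) ?_ (by linarith)) (by positivity)) (by positivity)
      rw [div_le_iff₀ hY0]
      rw [div_le_iff₀ (by linarith)] at hYK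
      linarith)
    obtain ⟨-, hs0, hs1, -⟩ := step_small hL hK hκ hY0 hYN hQ
      (show s * triNum G = 2 * Y by rw [hs, drop, div_mul_cancel₀ _ hQ0.ne'])
    rw [nextY, div_le_iff₀ (by linarith)]
    nlinarith [mul_nonneg (mul_nonneg hY0.le hs0) (show 0 ≤ 1 - s by linarith)]
  have ht0 : 0 < tiny N := Real.exp_pos _
  have hgain : triNum G * (tiny N * (nextY G Y / N)) + tiny N / K ^ 2
      ≤ triNum G * (tiny N * (Y / N)) := by
    have h1 := mul_le_mul_of_nonneg_left hY' (show 0 ≤ triNum G * tiny N / N by positivity)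
    have h2 : triNum G * tiny N / N * (Y * (1 - s / 2)) =
        triNum G * (tiny N * (Y / N)) - tiny N * (Y ^ 2 / N) := by
      have : s * triNum G = 2 * Y := by rw [hs, drop, div_mul_cancel₀ _ hQ0.ne']
      linear_combination -(tiny N * Y / (2 * N)) * this
    have h3 : 1 / K ^ 2 ≤ Y ^ 2 / N := by
      rw [div_le_div_iff₀ (by positivity) hN0, one_mul]
      rw [div_le_iff₀ (by linarith)] at hYK
      nlinarith [hL.one, pow_le_pow_left₀ hN0.le hYK 2]
    have h4 := mul_le_mul_of_nonneg_left h3 ht0.le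
    rw [h2] at h1
    have e1 : triNum G * tiny N / N * nextY G Y = triNum G * (tiny N * (nextY G Y / N)) := by ring
    have e2 : tiny N * (1 / K ^ 2) = tiny N / K ^ 2 := by ring
    linarith
  have hpay : (𝒮.card : ℝ) * (2 * (triNum G * err)) ≤ tiny N / K ^ 2 := by
    rw [le_div_iff₀ (by positivity)]
    refine le_trans ?_ hL.pay
    have he0 : 0 < err := Real.exp_pos _
    calc (𝒮.card : ℝ) * (2 * (triNum G * err)) * K ^ 2
        ≤ 3 * (N + 1) ^ 3 * (2 * ((N + 1) ^ 3 * err)) * K ^ 2 := by gcongr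
      _ = 6 * K ^ 2 * (N + 1) ^ 6 * err := by ring
      _ ≤ 48 * K ^ 2 * (N + 1) ^ 7 * err := by
          gcongr
          · norm_num
          · linarith
          · norm_num
  change _ + triNum G * (tiny N * (nextY G Y / N)) ≤ _
  linarith

theorem eventually_pay (C : ℝ) :
    ∀ᶠ n : ℕ in atTop, C * ((n : ℝ) + 1) ^ 7 * Real.exp (1 - lam n / 2) ≤ tiny n := by
  have hx : Tendsto (fun n : ℕ => lam (n : ℝ)) atTop atTop :=
    (tendsto_rpow_atTop (by norm_num : (0 : ℝ) < 1 / 20)).comp tendsto_natCast_atTop_atTop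
  have h0 := ((tendsto_rpow_mul_exp_neg_mul_atTop_nhds_zero (140 : ℝ) (1 / 4) (by norm_num)).comp
    hx).const_mul (|C| * 2 ^ 7 * Real.exp 1)
  rw [mul_zero] at h0
  filter_upwards [h0.eventually_le_const one_pos, eventually_ge_atTop 1] with n hn h1
  have h1' : (1 : ℝ) ≤ n := by exact_mod_cast h1
  simp only [Function.comp] at hn
  have e : lam (n : ℝ) ^ (140 : ℝ) = (n : ℝ) ^ 7 := by
    rw [lam, ← Real.rpow_mul (by linarith), ← Real.rpow_natCast]; norm_num
  rw [e] at hn
  have h2 : ((n : ℝ) + 1) ^ 7 ≤ 2 ^ 7 * (n : ℝ) ^ 7 := by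
    rw [← mul_pow]; exact pow_le_pow_left₀ (by positivity) (by linarith) 7
  calc C * ((n : ℝ) + 1) ^ 7 * Real.exp (1 - lam n / 2)
      ≤ |C| * (2 ^ 7 * (n : ℝ) ^ 7) * Real.exp (1 - lam n / 2) := by
        gcongr
        exact le_abs_self C
    _ = |C| * 2 ^ 7 * Real.exp 1 * ((n : ℝ) ^ 7 * Real.exp (-(1 / 4) * lam n)) * tiny n := by
        have : Real.exp (1 - lam n / 2) =
            Real.exp 1 * Real.exp (-(1 / 4) * lam n) * Real.exp (-lam n / 4) := by
          rw [← Real.exp_add, ← Real.exp_add]; congr 1; ring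
        rw [this, tiny]; ring
    _ ≤ 1 * tiny n := mul_le_mul_of_nonneg_right hn (Real.exp_pos _).le
    _ = _ := one_mul _

theorem eventually_rpow (C a b : ℝ) (h : a < b) :
    ∀ᶠ n : ℕ in atTop, C * (n : ℝ) ^ a ≤ (n : ℝ) ^ b := by
  have h0 := ((tendsto_rpow_atTop (show 0 < b - a by linarith)).comp
    tendsto_natCast_atTop_atTop).eventually_ge_atTop C
  filter_upwards [h0, eventually_ge_atTop 1] with n hn h1
  have h1' : (0 : ℝ) < n := by exact_mod_cast h1
  simp only [Function.comp] at hn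
  calc C * (n : ℝ) ^ a ≤ (n : ℝ) ^ (b - a) * (n : ℝ) ^ a :=
        mul_le_mul_of_nonneg_right hn (by positivity)
    _ = _ := by rw [← Real.rpow_add h1']; congr 1; ring

theorem eventually_large (K κ : ℝ) : ∀ᶠ n : ℕ in atTop, Large (n : ℝ) K κ := by
  filter_upwards [eventually_ge_atTop 1, eventually_rpow (2 * K * K ^ κ) (4 / 5) 1 (by norm_num),
    eventually_rpow (96 * K ^ 2 * (1 + κ)) 0 (1 / 2) (by norm_num),
    eventually_rpow 4 (1 / 20) (4 / 5) (by norm_num),
    eventually_rpow 38 (21 / 20) (8 / 5) (by norm_num), eventually_pay (48 * K ^ 2)]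
    with n h1 h2 h3 h4 h5 h6
  have h1' : (1 : ℝ) ≤ n := by exact_mod_cast h1
  rw [Real.rpow_one] at h2
  rw [Real.rpow_zero, mul_one, ← Real.sqrt_eq_rpow] at h3
  refine ⟨h1', le_trans (le_of_eq (by ring)) h2, h3, h4, ?_,
    Real.one_le_rpow h1' (by norm_num), h6⟩
  rw [lam, ← Real.rpow_natCast ((n : ℝ) ^ (4 / 5 : ℝ)) 2, ← Real.rpow_mul (by linarith)]
  calc 38 * ((n : ℝ) ^ (1 / 20 : ℝ) * n) = 38 * (n : ℝ) ^ (21 / 20 : ℝ) := by
        rw [← Real.rpow_add_one (by linarith : (n : ℝ) ≠ 0)]; norm_num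
    _ ≤ (n : ℝ) ^ (8 / 5 : ℝ) := h5
    _ = _ := by norm_num

theorem exit_start {n : ℕ} {K κ : ℝ} (hκ : 0 ≤ κ) (h16 : 16 ≤ n)
    (hL : Large (n : ℝ) K κ) (hK : 1 ≤ K) (hsix : 6 * lam (n : ℝ) ≤ (n : ℝ) ^ (4 / 5 : ℝ)) :
    exitPot κ (complete n) ((n : ℝ) - 2) ≤ 4 * tiny n := by
  have hn : (16 : ℝ) ≤ n := by exact_mod_cast h16
  have he : ∀ e ∈ complete n, e.card = 2 := fun e he => (mem_powersetCard.1 he).2
  simp only [exitPot, if_pos he, Fintype.card_fin]
  have hT := Real.exp_pos (-lam (n : ℝ) / 4)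
  have hterm : ∀ S ∈ univ.filter (fun S : Finset (Fin n) => 1 ≤ S.card ∧ S.card ≤ 3),
      Real.exp (lam (n : ℝ) * (rdev (complete n) κ ((n : ℝ) - 2) S - 1)) +
        Real.exp (lam (n : ℝ) * (-rdev (complete n) κ ((n : ℝ) - 2) S - 1)) ≤
      2 * Real.exp (1 - lam (n : ℝ)) := by
    intro S hS
    obtain ⟨h1, h2⟩ := (mem_filter.1 hS).2
    have hcom : com (complete n) S = univ \ S := by
      ext c
      simp only [com, complete, mem_filter, mem_univ, true_and, mem_powersetCard, subset_univ]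
      refine ⟨fun h => mem_sdiff.2 ⟨mem_univ c, fun hc => ?_⟩,
        fun h x hx => card_pair fun e : x = c => (mem_sdiff.1 h).2 (e ▸ hx)⟩
      have := h c hc
      simp at this
    have hX : ((com (complete n) S).card : ℝ) = n - S.card := by
      rw [hcom, card_univ_sdiff, Fintype.card_fin, Nat.cast_sub (by omega)]
    set E := env (n : ℝ) κ ((n : ℝ) - 2) with hE
    have hE4 : (n : ℝ) ^ (4 / 5 : ℝ) ≤ E := by
      rw [hE, env]
      exact le_mul_of_one_le_right (by positivity)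
        (Real.one_le_rpow (by rw [le_div_iff₀ (by linarith)]; linarith) hκ)
    have hp1 : pred (n : ℝ) ((n : ℝ) - 2) S.card ≤ n :=
      mul_le_of_le_one_right (by linarith) (pow_le_one₀ (Real.sqrt_nonneg _)
        (Real.sqrt_le_one.2 (by rw [div_le_one (by linarith)]; linarith)))
    have hp2 : (n : ℝ) - 6 ≤ pred (n : ℝ) ((n : ℝ) - 2) S.card := by
      set q := √(((n : ℝ) - 2) / n) with hq
      have hq2 : 1 - 2 / n ≤ q := by
        refine Real.le_sqrt_of_sq_le ?_
        have : 2 / (n : ℝ) ≤ 1 := by rw [div_le_one (by linarith)]; linarith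
        rw [sub_div, div_self (by linarith : (n : ℝ) ≠ 0)]
        nlinarith [div_nonneg (by norm_num : (0:ℝ) ≤ 2) (by linarith : (0:ℝ) ≤ n)]
      have hb := one_add_mul_le_pow (a := q - 1) (by linarith [Real.sqrt_nonneg (((n:ℝ) - 2) / n)])
        S.card
      rw [add_sub_cancel] at hb
      have hj : (S.card : ℝ) ≤ 3 := by exact_mod_cast h2
      have h9 : -(6 / (n : ℝ)) ≤ (S.card : ℝ) * (q - 1) := by
        have h10 : (S.card : ℝ) * -(2 / n) ≤ (S.card : ℝ) * (q - 1) :=
          mul_le_mul_of_nonneg_left (by linarith) (Nat.cast_nonneg _)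
        have h11 : (S.card : ℝ) * (2 / n) ≤ 3 * (2 / n) :=
          mul_le_mul_of_nonneg_right hj (by positivity)
        have : 3 * (2 / (n : ℝ)) = 6 / n := by ring
        linarith
      rw [pred, ← hq]
      calc (n : ℝ) - 6 = n * (1 - 6 / n) := by field_simp
        _ ≤ n * q ^ S.card := mul_le_mul_of_nonneg_left (by linarith) (by linarith)
    have hj : (S.card : ℝ) ≤ 3 := by exact_mod_cast h2
    have hj0 : (0 : ℝ) ≤ S.card := Nat.cast_nonneg _
    have hlam := hL.lam_one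
    have hE0 : 0 < E := by linarith
    have hr : |lam (n : ℝ) * rdev (complete n) κ ((n : ℝ) - 2) S| ≤ 1 := by
      rw [rdev, Fintype.card_fin, hX, ← hE, ← mul_div_assoc, abs_div, abs_of_pos hE0,
        div_le_one hE0, abs_mul, abs_of_pos (show 0 < lam (n : ℝ) by linarith)]
      refine le_trans ?_ (hsix.trans hE4)
      rw [mul_comm (6 : ℝ)]
      refine mul_le_mul_of_nonneg_left (abs_le.2 ⟨?_, ?_⟩) (by linarith) <;> linarith
    obtain ⟨r1, r2⟩ := abs_le.1 hr
    rw [two_mul]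
    exact add_le_add (Real.exp_le_exp.2 (by linarith)) (Real.exp_le_exp.2 (by linarith))
  refine le_trans (add_le_add (sum_le_card_nsmul _ _ _ hterm) le_rfl) ?_
  rw [nsmul_eq_mul]
  have hcard : ((univ.filter fun S : Finset (Fin n) => 1 ≤ S.card ∧ S.card ≤ 3).card : ℝ) ≤
      3 * ((n : ℝ) + 1) ^ 3 := by
    have h1 : (univ.filter fun S : Finset (Fin n) => 1 ≤ S.card ∧ S.card ≤ 3).card ≤
        ∑ i ∈ ({1, 2, 3} : Finset ℕ), (univ.powersetCard i : Finset (Finset (Fin n))).card := by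
      refine le_trans (card_le_card fun S hS => ?_) card_biUnion_le
      obtain ⟨h1, h2⟩ := (mem_filter.1 hS).2
      refine mem_biUnion.2 ⟨S.card, ?_, mem_powersetCard.2 ⟨subset_univ S, rfl⟩⟩
      simp only [mem_insert, mem_singleton]; omega
    have h2 : (univ.filter fun S : Finset (Fin n) => 1 ≤ S.card ∧ S.card ≤ 3).card ≤
        3 * (n + 1) ^ 3 := by
      refine h1.trans (le_trans (sum_le_card_nsmul _ _ ((n + 1) ^ 3) fun i hi => ?_) ?_)
      · rw [card_powersetCard, card_univ, Fintype.card_fin]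
        refine (Nat.choose_le_pow _ _).trans ((Nat.pow_le_pow_left (Nat.le_succ _) i).trans
          (Nat.pow_le_pow_right (Nat.succ_pos _) ?_))
        simp only [mem_insert, mem_singleton] at hi; omega
      · simp
    exact_mod_cast h2
  have hpay : 3 * ((n : ℝ) + 1) ^ 3 * (2 * Real.exp (1 - lam (n : ℝ))) ≤ tiny n := by
    refine le_trans ?_ hL.pay
    have hK2 : (1 : ℝ) ≤ K ^ 2 := one_le_pow₀ hK
    calc _ = 6 * ((n : ℝ) + 1) ^ 3 * Real.exp (1 - lam (n : ℝ)) := by ring
      _ ≤ 48 * K ^ 2 * ((n : ℝ) + 1) ^ 7 * Real.exp (1 - lam (n : ℝ) / 2) := by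
          gcongr
          · nlinarith
          · linarith
          · norm_num
          · linarith [hL.lam_one]
  have h5 : tiny (n : ℝ) * (((n : ℝ) - 2) / n) ≤ tiny n :=
    mul_le_of_le_one_right (Real.exp_pos _).le (by rw [div_le_one (by linarith)]; linarith)
  have h6 := mul_le_mul_of_nonneg_right hcard (show 0 ≤ 2 * Real.exp (1 - lam (n : ℝ)) by positivity)
  have : 0 < tiny (n : ℝ) := Real.exp_pos _
  linarith

/-- One step does not increase the potential, and it starts negligibly small. -/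
theorem exitBound : ExitBound := by
  intro K hK
  refine ⟨12 * K, by linarith, ?_⟩
  filter_upwards [eventually_large K (12 * K), eventually_ge_atTop 16,
    eventually_rpow 6 (1 / 20) (4 / 5) (by norm_num)] with n hL h16 h6
  refine ⟨fun G Y hYK hYN h => ?_, exit_start (by linarith) h16 hL hK h6⟩
  have hc : (Fintype.card (Fin n) : ℝ) = n := by rw [Fintype.card_fin]
  exact exit_step (K := K) (by rwa [hc]) hK rfl (by rwa [hc]) (by rwa [hc]) h

end Vale.Agent.P046.Sharp.Top
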