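import Vale.Agent.P046.Sharp.Top.Link
import Mathlib.Analysis.SpecialFunctions.Pow.Real

/-!
P046: the exponential potential that keeps a state pseudo-random on the window `[n/ω, n]`,
and the statement `ExitBound` to be proved about it.
-/

open Finset Filter

namespace Vale.Agent.P046.Sharp.Top

variable {α : Type*} [DecidableEq α] [Fintype α]

/-- The envelope of the common-neighbour deviations. -/
noncomputable def env (N κ Y : ℝ) : ℝ := N ^ (4 / 5 : ℝ) * (N / Y) ^ κ

/-- The sharpness of the exponential potential. -/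
noncomputable def lam (N : ℝ) : ℝ := N ^ (1 / 20 : ℝ)

/-- The budget for the drift of small deviations. -/
noncomputable def tiny (N : ℝ) : ℝ := Real.exp (-lam N / 4)

/-- The deviation of `S` in units of the envelope. -/
noncomputable def rdev (G : Finset (Finset α)) (κ Y : ℝ) (S : Finset α) : ℝ :=
  (((com G S).card : ℝ) - pred (Fintype.card α) Y S.card) / env (Fintype.card α) κ Y

/-- Below one only on pseudo-random states. -/
noncomputable def exitPot (κ : ℝ) (G : Finset (Finset α)) (Y : ℝ) : ℝ :=
  if ∀ e ∈ G, e.card = 2 then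
    ∑ S ∈ univ.filter (fun S : Finset α => 1 ≤ S.card ∧ S.card ≤ 3),
      (Real.exp (lam (Fintype.card α) * (rdev G κ Y S - 1)) +
        Real.exp (lam (Fintype.card α) * (-rdev G κ Y S - 1)))
      + tiny (Fintype.card α) * (Y / Fintype.card α)
  else 1

theorem exitPot_nonneg (κ : ℝ) (G : Finset (Finset α)) {Y : ℝ} (hY : 0 ≤ Y) :
    0 ≤ exitPot κ G Y := by
  unfold exitPot tiny
  split_ifs <;> positivity

/-- A state with small potential is pseudo-random. -/
theorem nice_of_exitPot_lt {κ Y : ℝ} {G : Finset (Finset α)} (hY : 0 < Y)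
    (hN : 0 < (Fintype.card α : ℝ)) (h : exitPot κ G Y < 1) :
    Nice G Y (env (Fintype.card α) κ Y) := by
  unfold exitPot at h
  split_ifs at h with he
  · refine ⟨he, fun S h1 h2 => ?_⟩
    set L := lam (Fintype.card α)
    have hL : 0 < L := Real.rpow_pos_of_pos hN _
    have hE : 0 < env (Fintype.card α) κ Y :=
      mul_pos (Real.rpow_pos_of_pos hN _) (Real.rpow_pos_of_pos (div_pos hN hY) _)
    have hT : 0 ≤ tiny (Fintype.card α) * (Y / Fintype.card α) := by
      unfold tiny; positivity
    have hS := single_le_sum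
      (f := fun S : Finset α => Real.exp (L * (rdev G κ Y S - 1)) + Real.exp (L * (-rdev G κ Y S - 1)))
      (fun S _ => by positivity) (show S ∈ univ.filter (fun S : Finset α => 1 ≤ S.card ∧ S.card ≤ 3)
        from mem_filter.2 ⟨mem_univ S, h1, h2⟩)
    have small : ∀ r, Real.exp (L * (r - 1)) < 1 → r < 1 := fun r hr => by
      have h3 := Real.exp_lt_one_iff.1 hr
      by_contra hc
      push Not at hc
      nlinarith
    have e1 := Real.exp_pos (L * (rdev G κ Y S - 1))
    have e2 := Real.exp_pos (L * (-rdev G κ Y S - 1))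
    have r1 := small _ (show Real.exp (L * (rdev G κ Y S - 1)) < 1 by linarith)
    have r2 := small _ (show Real.exp (L * (-rdev G κ Y S - 1)) < 1 by linarith)
    rw [rdev, div_lt_iff₀ hE] at r1
    rw [rdev, neg_div', div_lt_iff₀ hE] at r2
    rw [abs_le]
    constructor <;> linarith
  · linarith

/-- TO BE PROVED (Top/Exit.lean): one step does not increase the potential while it is below one,
and it starts negligibly small. -/
def ExitBound : Prop :=
  ∀ ω : ℝ, 1 ≤ ω → ∃ κ : ℝ, 0 < κ ∧ ∀ᶠ n : ℕ in atTop,
    (∀ (G : Finset (Finset (Fin n))) (Y : ℝ), (n : ℝ) / ω ≤ Y → Y ≤ n → exitPot κ G Y < 1 →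
      ∑ t ∈ tri G, exitPot κ (G \ sides t) (nextY G Y) ≤ triNum G * exitPot κ G Y) ∧
    exitPot κ (complete n) ((n : ℝ) - 2) ≤ 4 * tiny n

end Vale.Agent.P046.Sharp.Top
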