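import Vale.Agent.P046.Sharp.Cert

/-! P046: what the window step delivers to the limit-constant argument. -/

open Finset Filter

namespace Vale.Agent.P046.Sharp.Top

variable {α : Type*} [DecidableEq α] [Fintype α]

/-- A penalty that starts below `δ n^{3/2}` and coincides with `pen` below the window. It satisfies
the step inequality of `Penalty` with its margin (the state invariant is preserved by
`Dense.next_good`), and a weak form of its domination. -/
structure TopPenalty (α : Type*) [DecidableEq α] [Fintype α] (N K C Y1 : ℝ)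
    (xi : Finset (Finset α) → Finset (Finset α) → ℝ → (Finset α → ℝ) → ℝ) : Prop where
  nonneg : ∀ (G B : Finset (Finset α)) (Y : ℝ) (w : Finset α → ℝ), Good G B Y w → K ≤ Y → Y ≤ N →
    0 ≤ xi G B Y w
  ge : ∀ (G B : Finset (Finset α)) (Y : ℝ) (w : Finset α → ℝ), G ⊆ univ.powersetCard 2 →
    Good G B Y w → K ≤ Y → Y ≤ N → √Y * cap Y * (psi G Y w + sq G w) ≤ C * xi G B Y w
  below : ∀ (G B : Finset (Finset α)) (Y : ℝ) (w : Finset α → ℝ), Y ≤ Y1 →
    xi G B Y w = pen N G B Y w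
  step : ∀ (G B : Finset (Finset α)) (Y : ℝ) (w : Finset α → ℝ), Good G B Y w → K ≤ Y → Y ≤ N →
    (G.card : ℝ) * Y / 2 ≤ 3 * triNum G →
    ∑ t ∈ tri G, xi (G \ sides t) (nextB G B Y t) (nextY G Y) (nextW G B Y w t)
        + triNum G * (drop G Y * (√Y * cap Y) * (psi G Y w + sq G w)) ≤
      triNum G * (xi G B Y w + C * drop G Y * ((G.card : ℝ) * cap Y / √Y))

/-- Step A: for every `δ` there is a window `[n/ω, n]` after which the penalty is below `δ n^{3/2}`. -/
def TopCertified : Prop :=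
  ∃ K C : ℝ, 1 ≤ C ∧ ∀ δ : ℝ, 0 < δ → ∃ ω : ℝ, 1 ≤ ω ∧ ∀ᶠ n : ℕ in atTop,
    ∃ xi : Finset (Finset (Fin n)) → Finset (Finset (Fin n)) → ℝ → (Finset (Fin n) → ℝ) → ℝ,
      TopPenalty (Fin n) n K C ((n : ℝ) / ω) xi ∧
      xi (complete n) ∅ ((n : ℝ) - 2) (fun _ => 0) ≤ δ * ((n : ℝ) * √n)

end Vale.Agent.P046.Sharp.Top
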