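import Vale.Agent.P046.Sharp.Top.Slack
import Vale.Agent.P046.Sharp.Top.Env
import Vale.Agent.P046.Sharp.Top.Statement

/-!
P046: the penalty for the top window. It is the minimum of `pen` and
`f pen + (1 - f) capPart + n^16 exitPot` with `f = min 1 ((Y₁/Y)^(1/2000))`.
-/

open Finset Filter

namespace Vale.Agent.P046.Sharp.Top

variable {α : Type*} [DecidableEq α] [Fintype α] {G B : Finset (Finset α)} {Y N Y1 κ : ℝ}
  {w : Finset α → ℝ}

/-- The discount inside the window. -/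
noncomputable def disc (Y1 Y : ℝ) : ℝ := min 1 ((Y1 / Y) ^ (1 / 2000 : ℝ))

/-- The supersolution that uses pseudo-randomness. -/
noncomputable def inner (N Y1 κ : ℝ) (G B : Finset (Finset α)) (Y : ℝ) (w : Finset α → ℝ) : ℝ :=
  disc Y1 Y * pen N G B Y w + (1 - disc Y1 Y) * capPart G B Y w + N ^ 16 * exitPot κ G Y

open Classical in
/-- The penalty for the top window. -/
noncomputable def topPen (N Y1 κ : ℝ) (G B : Finset (Finset α)) (Y : ℝ) (w : Finset α → ℝ) : ℝ :=
  if Y ≤ Y1 ∨ ¬ (∀ e ∈ G, e.card = 2) then pen N G B Y w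
  else min (pen N G B Y w) (inner N Y1 κ G B Y w)

theorem disc_le_one (Y1 Y : ℝ) : disc Y1 Y ≤ 1 := min_le_left _ _

theorem disc_nonneg (h1 : 0 ≤ Y1) (hY : 0 ≤ Y) : 0 ≤ disc Y1 Y :=
  le_min zero_le_one (Real.rpow_nonneg (div_nonneg h1 hY) _)

theorem disc_anti {Z : ℝ} (h1 : 0 ≤ Y1) (hZ : 0 < Z) (h : Z ≤ Y) : disc Y1 Y ≤ disc Y1 Z :=
  min_le_min le_rfl (Real.rpow_le_rpow (div_nonneg h1 (hZ.le.trans h))
    (div_le_div_of_nonneg_left h1 hZ h) (by norm_num))

theorem disc_eq_one (hY : 0 < Y) (h : Y ≤ Y1) : disc Y1 Y = 1 :=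
  min_eq_left (Real.one_le_rpow ((one_le_div hY).2 h) (by norm_num))

theorem disc_ge {M : ℝ} (h1 : 0 < Y1) (hY : 0 < Y) (h : Y ≤ M) (hM : Y1 ≤ M) :
    (Y1 / M) ^ (1 / 2000 : ℝ) ≤ disc Y1 Y := by
  refine le_min (Real.rpow_le_one (div_nonneg h1.le (hY.le.trans h))
    ((div_le_one (hY.trans_le h)).2 hM) (by norm_num)) ?_
  exact Real.rpow_le_rpow (div_nonneg h1.le (hY.le.trans h))
    (div_le_div_of_nonneg_left h1.le hY h) (by norm_num)

/-- The discount grows by less than half of the decrease of the penalty. -/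
theorem disc_step {s : ℝ} (h1 : 0 ≤ Y1) (hY : 0 < Y) (hs : 0 ≤ s) :
    disc Y1 (Y / (1 + s)) ≤ disc Y1 Y * (1 + s / 2000) := by
  have e : (Y1 / (Y / (1 + s))) ^ (1 / 2000 : ℝ) =
      (Y1 / Y) ^ (1 / 2000 : ℝ) * (1 + s) ^ (1 / 2000 : ℝ) := by
    rw [div_div_eq_mul_div, mul_div_right_comm,
      Real.mul_rpow (div_nonneg h1 hY.le) (by linarith)]
  have hg : (1 + s) ^ (1 / 2000 : ℝ) ≤ 1 + s / 2000 :=
    (rpow_one_add_le_one_add_mul_self (by linarith) (by norm_num) (by norm_num)).trans_eq (by ring)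
  have h0 : 0 ≤ (Y1 / Y) ^ (1 / 2000 : ℝ) := Real.rpow_nonneg (div_nonneg h1 hY.le) _
  unfold disc
  rw [e, min_mul_of_nonneg _ _ (by linarith : 0 ≤ 1 + s / 2000), one_mul]
  exact min_le_min (by linarith) (mul_le_mul_of_nonneg_left hg h0)

theorem pen_nonneg (hN : 0 < N) (hYN : Y ≤ N) (hY : 0 < Y) (hp : cap Y ≤ 1 / 10 ^ 30) :
    0 ≤ pen N G B Y w := by
  obtain ⟨b1, -⟩ := beta_range hN hY hYN hp
  have := eps_pos hN hY
  have := cap_pos hY
  have := psi_nonneg G Y w
  have := sq_nonneg' G w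
  have := taint_nonneg G B Y
  have := tq_nonneg G B Y w
  have : 0 ≤ beta N Y := by linarith
  unfold pen inv7
  positivity

theorem capPart_nonneg (hY : 0 < Y) : 0 ≤ capPart G B Y w := by
  have := cap_pos hY
  have := sq_nonneg' G w
  have := taint_nonneg G B Y
  unfold capPart
  positivity

theorem inner_nonneg (hN : 0 < N) (h1 : 0 ≤ Y1) (hYN : Y ≤ N) (hY : 0 < Y)
    (hp : cap Y ≤ 1 / 10 ^ 30) : 0 ≤ inner N Y1 κ G B Y w := by
  have := pen_nonneg (G := G) (B := B) (w := w) hN hYN hY hp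
  have := capPart_nonneg (G := G) (B := B) (w := w) hY
  have := exitPot_nonneg κ G hY.le
  have := disc_nonneg h1 hY.le
  have : 0 ≤ 1 - disc Y1 Y := by linarith [disc_le_one Y1 Y]
  unfold inner
  positivity

theorem topPen_le_pen : topPen N Y1 κ G B Y w ≤ pen N G B Y w := by
  unfold topPen
  split_ifs
  · exact le_rfl
  · exact min_le_left _ _

theorem topPen_le_inner (hN : 0 < N) (hY : 0 < Y) (he : ∀ e ∈ G, e.card = 2) :
    topPen N Y1 κ G B Y w ≤ inner N Y1 κ G B Y w := by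
  unfold topPen
  split_ifs with h
  · rw [inner, disc_eq_one hY (h.resolve_right (not_not.2 he)), one_mul, sub_self, zero_mul,
      add_zero]
    exact le_add_of_nonneg_right (mul_nonneg (pow_nonneg hN.le _) (exitPot_nonneg κ G hY.le))
  · exact min_le_right _ _

/-- The weak domination. -/
theorem topPen_ge (hN : 0 < N) (h1 : 0 ≤ Y1) (hYN : Y ≤ N) (hY : 0 < Y)
    (hp : cap Y ≤ 1 / 10 ^ 30) (hcap : Y1 < Y → cap Y ≤ disc Y1 Y) :
    √Y * cap Y * (psi G Y w + sq G w) ≤ topPen N Y1 κ G B Y w := by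
  obtain ⟨b1, -⟩ := beta_range hN hY hYN hp
  have hψ := psi_nonneg G Y w
  have hq := sq_nonneg' G w
  have hΓ := taint_nonneg G B Y
  have hT := tq_nonneg G B Y w
  have he := eps_pos hN hY
  have hc := cap_pos hY
  have hi : 0 ≤ inv7 Y := by unfold inv7; positivity
  have r1 : √Y * cap Y * sq G w ≤ capPart G B Y w := by
    have : 0 ≤ √Y * cap Y * sq G w := by positivity
    have : 0 ≤ √Y * cap Y * taint G B Y := by positivity
    unfold capPart
    linarith
  have p1 : √Y * psi G Y w + capPart G B Y w ≤ pen N G B Y w := by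
    have h1 : √Y * psi G Y w ≤ beta N Y * (√Y * psi G Y w) :=
      le_mul_of_one_le_left (by positivity) (by linarith)
    have : 0 ≤ 4 / eps N Y * √Y * tq G B Y w := by positivity
    have : 0 ≤ 10 ^ 17 * inv7 Y / eps N Y * ((cycles G B).card : ℝ) := by positivity
    unfold pen capPart
    linarith
  have hs : 0 ≤ √Y * psi G Y w := by positivity
  have k1 : √Y * cap Y * psi G Y w ≤ √Y * psi G Y w := by
    calc √Y * cap Y * psi G Y w = cap Y * (√Y * psi G Y w) := by ring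
      _ ≤ 1 * (√Y * psi G Y w) := by gcongr; exact hp.trans (by norm_num)
      _ = _ := one_mul _
  unfold topPen
  split_ifs with h
  · linarith
  rw [not_or, not_le] at h
  refine le_min (by linarith) ?_
  have hf := hcap h.1
  have hf0 : 0 ≤ disc Y1 Y := disc_nonneg h1 hY.le
  have a1 := mul_le_mul_of_nonneg_left p1 hf0
  have a2 := mul_le_mul_of_nonneg_right hf hs
  have a3 : 0 ≤ N ^ 16 * exitPot κ G Y := mul_nonneg (pow_nonneg hN.le _) (exitPot_nonneg κ G hY.le)
  have a4 : √Y * cap Y * (psi G Y w + sq G w) =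
      cap Y * (√Y * psi G Y w) + √Y * cap Y * sq G w := by ring
  unfold inner
  linarith

/-- The penalty is at most polynomial. -/
theorem pen_poly (hG : Good G B Y w) (he : ∀ e ∈ G, e.card = 2)
    (hN : N = (Fintype.card α : ℝ)) (h1 : 10 ^ 4 ≤ N) (hY : 1 ≤ Y) (hYN : Y ≤ N)
    (hp : cap Y ≤ 1 / 10 ^ 30) : pen N G B Y w ≤ N ^ 16 := by
  have hY0 : 0 < Y := by linarith
  have hN0 : 0 < N := by linarith
  have hm : (G.card : ℝ) ≤ N ^ 2 := by
    have h : G ⊆ univ.powersetCard 2 := fun e h => mem_powersetCard.2 ⟨subset_univ e, he e h⟩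
    have h2 := card_le_card h
    rw [card_powersetCard, card_univ] at h2
    have h3 := h2.trans (Nat.choose_le_pow _ 2)
    rw [hN]; exact_mod_cast h3
  have hz : ∀ e ∈ G, 0 ≤ zeta G Y e ∧ zeta G Y e ≤ N := fun e h => by
    refine ⟨zeta_nonneg' hY0 e, ?_⟩
    rw [zeta]
    refine (div_le_self (Nat.cast_nonneg _) hY).trans ?_
    rw [hN]
    refine Nat.cast_le.2 ?_
    refine (card_le_card_of_injOn (fun t => t \ e) (t := univ.powersetCard 1) (fun t ht => ?_)
      (fun s hs t ht hst => ?_)).trans (by rw [card_powersetCard, card_univ, Nat.choose_one_right])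
    · simp only [mem_coe, mem_filter, mem_tri, sides, mem_powersetCard] at ht
      exact mem_powersetCard.2 ⟨subset_univ _, by rw [card_sdiff_of_subset ht.2.1, ht.1.1, he e h]⟩
    · simp only [mem_coe, mem_filter, mem_tri, sides, mem_powersetCard] at hs ht
      rw [← union_sdiff_of_subset hs.2.1, ← union_sdiff_of_subset ht.2.1]
      exact congrArg (e ∪ ·) hst
  have hw : ∀ e, |w e| ≤ 1 := fun e => (hG.small e).trans (by linarith)
  have hψ : psi G Y w ≤ N ^ 2 * (3 * N) := by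
    refine (sum_le_card_nsmul _ _ (3 * N) fun e h => ?_).trans ?_
    · refine (phi_le_abs _).trans ?_
      obtain ⟨z1, z2⟩ := hz e h
      obtain ⟨w1, w2⟩ := abs_le.1 (hw e)
      rw [uu, abs_le]
      constructor <;> nlinarith
    · rw [nsmul_eq_mul]; gcongr
  have hsq : sq G w ≤ N ^ 2 := by
    refine (sum_le_card_nsmul _ _ 1 fun e _ => ?_).trans (by rw [nsmul_one]; exact hm)
    rw [← sq_abs]; exact pow_le_one₀ (abs_nonneg _) (hw e)
  have hΓ : taint G B Y ≤ 200 * N ^ 4 := by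
    have k1 : ((G ∩ B).card : ℝ) ≤ N ^ 2 :=
      (Nat.cast_le.2 (card_le_card inter_subset_left)).trans hm
    have k2 : ∑ e ∈ G \ B, 100 * (zeta G Y e - 1) ^ 2 ≤ N ^ 2 * (100 * N ^ 2) := by
      refine (sum_le_card_nsmul _ _ (100 * N ^ 2) fun e h => ?_).trans ?_
      · obtain ⟨z1, z2⟩ := hz e (mem_sdiff.1 h).1
        nlinarith
      · rw [nsmul_eq_mul]; gcongr
        exact (Nat.cast_le.2 (card_le_card sdiff_subset)).trans hm
    have : N ^ 2 ≤ N ^ 4 := pow_le_pow_right₀ (by linarith) (by norm_num)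
    unfold taint
    linarith
  have hT : tq G B Y w ≤ N ^ 2 * (4 * N ^ 2) := by
    refine (sum_le_card_nsmul _ _ (4 * N ^ 2) fun e h => ?_).trans ?_
    · obtain ⟨z1, z2⟩ := hz e (mem_sdiff.1 h).1
      have hx : |xx G Y w e| ≤ 2 * zeta G Y e := by
        rw [xx, abs_div, abs_of_pos hY0, zeta, ← mul_div_assoc]
        refine div_le_div_of_nonneg_right ?_ hY0.le
        refine (abs_sum_le_sum_abs _ _).trans ?_
        rw [show (deg G e : ℝ) = ((((tri G).filter (e ∈ sides ·))).card : ℝ) from rfl,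
          mul_comm, ← nsmul_eq_mul, ← sum_const]
        refine sum_le_sum fun k hk => (abs_sum_le_sum_abs _ _).trans ?_
        simp only [mem_filter] at hk
        refine (sum_le_card_nsmul _ _ (1 : ℝ) fun f _ => hw f).trans ?_
        rw [card_erase_of_mem hk.2, card_sides hk.1]; norm_num
      rw [← sq_abs]
      calc |xx G Y w e| ^ 2 ≤ (2 * N) ^ 2 := pow_le_pow_left₀ (abs_nonneg _) (by linarith) 2
        _ = 4 * N ^ 2 := by ring
    · rw [nsmul_eq_mul]; gcongr
      exact (Nat.cast_le.2 (card_le_card sdiff_subset)).trans hm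
  have hW : ((cycles G B).card : ℝ) ≤ N ^ 8 := by
    have h : (cycles G B).card ≤ G.card * G.card * (G.card * G.card) :=
      (card_le_card ((filter_subset _ _).trans (filter_subset _ _))).trans_eq
        (by simp only [card_product])
    have h' : ((cycles G B).card : ℝ) ≤ (G.card : ℝ) * G.card * (G.card * G.card) := by
      exact_mod_cast h
    calc _ ≤ N ^ 2 * N ^ 2 * (N ^ 2 * N ^ 2) := h'.trans (by gcongr)
      _ = _ := by ring
  have hs : √Y ≤ N := by
    rw [Real.sqrt_le_left hN0.le]; nlinarith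
  have hc := cap_pos hY0
  have hc1 : cap Y ≤ 1 := hp.trans (by norm_num)
  have he' : 1 / eps N Y ≤ N := by
    rw [div_le_iff₀ (eps_pos hN0 hY0)]
    have k := cap_le_eps hN0 hY0
    have k2 : 1 ≤ N * cap Y := by
      rw [← div_le_iff₀' hN0]
      refine le_trans ?_ (le_of_eq (show Y ^ (-(1 / 50) : ℝ) = cap Y from rfl))
      rw [one_div, ← Real.rpow_neg_one]
      exact (Real.rpow_le_rpow_of_exponent_le (by linarith) (by norm_num)).trans
        (Real.rpow_le_rpow_of_nonpos hY0 hYN (by norm_num))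
    exact k2.trans (mul_le_mul_of_nonneg_left k hN0.le)
  obtain ⟨b1, b2⟩ := beta_range hN0 hY0 hYN hp
  have hi : inv7 Y ≤ 1 := by
    rw [inv7, div_le_one (by positivity)]
    exact one_le_mul_of_one_le_of_one_le (one_le_pow₀ hY) (Real.one_le_sqrt.2 hY)
  have hi0 : 0 ≤ inv7 Y := by unfold inv7; positivity
  have hψ0 := psi_nonneg G Y w
  have hq0 := sq_nonneg' G w
  have hΓ0 := taint_nonneg G B Y
  have hT0 := tq_nonneg G B Y w
  have e0 := eps_pos hN0 hY0
  calc pen N G B Y w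
      = beta N Y * √Y * psi G Y w + √Y * cap Y * (10 ^ 27 * sq G w + 10 ^ 17 * taint G B Y)
        + 4 * (1 / eps N Y) * √Y * tq G B Y w
        + 10 ^ 17 * inv7 Y * (1 / eps N Y) * (cycles G B).card := by rw [pen]; ring
    _ ≤ 3 * N * (N ^ 2 * (3 * N)) + N * 1 * (10 ^ 27 * N ^ 2 + 10 ^ 17 * (200 * N ^ 4))
        + 4 * N * N * (N ^ 2 * (4 * N ^ 2)) + 10 ^ 17 * 1 * N * N ^ 8 := by gcongr
    _ ≤ _ := by
        have d : ∀ a : ℕ, a ≤ 9 → N ^ a ≤ N ^ 9 := fun a ha => pow_le_pow_right₀ (by linarith) ha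
        have d7 : (10 ^ 28 : ℝ) * N ^ 9 ≤ N ^ 7 * N ^ 9 :=
          mul_le_mul_of_nonneg_right ((show (10:ℝ) ^ 28 ≤ (10 ^ 4) ^ 7 by norm_num).trans
            (pow_le_pow_left₀ (by norm_num) h1 7)) (by positivity)
        have := d 3 (by norm_num)
        have := d 4 (by norm_num)
        have := d 5 (by norm_num)
        have := d 6 (by norm_num)
        have := d 7 (by norm_num)
        have : 0 ≤ N ^ 9 := by positivity
        linarith

/-- One dense step of the inner supersolution at a pseudo-random state. -/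
theorem inner_step (hd : Dense G B Y w) (htq : TqBound α) (hYN : Y ≤ N) (hY1 : 0 < Y1)
    (hp : cap Y ≤ 1 / 10 ^ 30) (hdis : Y * psi G Y w ≤ pd G Y w)
    (hcap : 10 ^ 29 * cap Y ≤ disc Y1 Y)
    (hpot : ∑ t ∈ tri G, exitPot κ (G \ sides t) (nextY G Y) ≤ triNum G * exitPot κ G Y) :
    ∑ t ∈ tri G, inner N Y1 κ (G \ sides t) (nextB G B Y t) (nextY G Y) (nextW G B Y w t)
        + 2 * Y * (√Y * cap Y) * (psi G Y w + sq G w) ≤
      triNum G * inner N Y1 κ G B Y w + 10 ^ 32 * (2 * (√Y * cap Y * G.card)) := by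
  have hY := hd.pos
  have hN : 0 < N := hY.trans_le hYN
  have hc := cap_pos hY
  have hP := pen_nonneg (G := G) (B := B) (w := w) hN hYN hY hp
  have hR := capPart_nonneg (G := G) (B := B) (w := w) hY
  have hψ := psi_nonneg G Y w
  have hq := sq_nonneg' G w
  have hpd := hd.pd_nonneg
  have a := pen_slack htq hd hYN hp hdis
  have b := capPart_step (N := N) hd hYN hp
  have hf := disc_anti hY1.le hd.nextY_pos hd.nextY_le
  have hf0 := disc_nonneg hY1.le hY.le
  have hf' := disc_le_one Y1 (nextY G Y)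
  have hf2 : disc Y1 (nextY G Y) ≤ disc Y1 Y * (1 + drop G Y / 2000) :=
    disc_step hY1.le hY hd.drop_nonneg
  set f := disc Y1 Y
  set f' := disc Y1 (nextY G Y)
  set src := 10 ^ 32 * (2 * (√Y * cap Y * G.card))
  have hQ : Y / 1000 ≤ triNum G := by
    have h1 := hd.many
    have h2 := hd.sq_le
    have h3 := hd.large
    have : 6 * 1 ≤ (G.card : ℝ) := by nlinarith
    nlinarith
  have key : f' * (triNum G - Y / 1000) ≤ f * triNum G := by
    refine le_trans (mul_le_mul_of_nonneg_right hf2 (by linarith)) ?_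
    have hdm := hd.drop_mul
    have : (1 + drop G Y / 2000) * (triNum G - Y / 1000) ≤ triNum G := by
      have : 0 ≤ drop G Y * Y := mul_nonneg hd.drop_nonneg hY.le
      linarith
    rw [mul_assoc]
    exact mul_le_mul_of_nonneg_left this hf0
  have keyP := mul_le_mul_of_nonneg_right key hP
  have k1 := mul_le_mul_of_nonneg_left a (hf0.trans hf)
  have k2 := mul_le_mul_of_nonneg_left b (sub_nonneg.2 hf')
  have k3 : (1 - f') * (triNum G * capPart G B Y w) ≤ (1 - f) * (triNum G * capPart G B Y w) := by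
    refine mul_le_mul_of_nonneg_right (by linarith) (mul_nonneg ?_ hR)
    linarith
  have k4 : (1 - f') * (10 ^ 28 * (√Y * cap Y * (Y * psi G Y w + pd G Y w))) +
      (1 - f') * (2 * Y * (√Y * cap Y) * psi G Y w) ≤ f' * (1 / 2 * (√Y * pd G Y w)) := by
    calc (1 - f') * (10 ^ 28 * (√Y * cap Y * (Y * psi G Y w + pd G Y w))) +
          (1 - f') * (2 * Y * (√Y * cap Y) * psi G Y w)
        = (1 - f') * (√Y * cap Y * ((10 ^ 28 + 2) * (Y * psi G Y w) + 10 ^ 28 * pd G Y w)) := by ring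
      _ ≤ 1 * (√Y * cap Y * ((10 ^ 28 + 2) * pd G Y w + 10 ^ 28 * pd G Y w)) := by
          gcongr; linarith
      _ ≤ 10 ^ 29 * cap Y * (1 / 2 * (√Y * pd G Y w)) := by
          have : 0 ≤ √Y * cap Y * pd G Y w := by positivity
          linarith
      _ ≤ f' * (1 / 2 * (√Y * pd G Y w)) :=
          mul_le_mul_of_nonneg_right (hcap.trans hf) (by positivity)
  have k5 := mul_le_mul_of_nonneg_left hpot (pow_nonneg hN.le 16)
  have n3 : 0 ≤ (1 - f') * (Y / 1000 * capPart G B Y w) :=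
    mul_nonneg (sub_nonneg.2 hf') (by positivity)
  simp only [inner, sum_add_distrib, ← mul_sum]
  linarith

/-- One dense step of the window penalty. -/
theorem topPen_step (hd : Dense G B Y w) (htq : TqBound α)
    (hN : N = (Fintype.card α : ℝ)) (h4 : 10 ^ 4 ≤ N) (hY1 : 0 < Y1) (hY1N : Y1 ≤ N)
    (hYN : Y ≤ N) (hp : cap Y ≤ 1 / 10 ^ 30)
    (hcap : 10 ^ 29 * cap Y1 ≤ (Y1 / N) ^ (1 / 2000 : ℝ))
    (hE : 1 ≤ env N κ Y) (hsmall : Y1 ≤ Y → 1280 * (env N κ Y * N) ≤ Y ^ 2)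
    (hpot : Y1 ≤ Y → exitPot κ G Y < 1 →
      ∑ t ∈ tri G, exitPot κ (G \ sides t) (nextY G Y) ≤ triNum G * exitPot κ G Y) :
    ∑ t ∈ tri G, topPen N Y1 κ (G \ sides t) (nextB G B Y t) (nextY G Y) (nextW G B Y w t)
        + 2 * Y * (√Y * cap Y) * (psi G Y w + sq G w) ≤
      triNum G * topPen N Y1 κ G B Y w + 10 ^ 32 * (2 * (√Y * cap Y * G.card)) := by
  have hY := hd.pos
  have hN0 : 0 < N := hY.trans_le hYN
  have plain : ∑ t ∈ tri G,
      topPen N Y1 κ (G \ sides t) (nextB G B Y t) (nextY G Y) (nextW G B Y w t)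
        + 2 * Y * (√Y * cap Y) * (psi G Y w + sq G w) ≤
      triNum G * pen N G B Y w + 10 ^ 32 * (2 * (√Y * cap Y * G.card)) := by
    exact le_trans (add_le_add (sum_le_sum fun t _ => topPen_le_pen) le_rfl)
      (pen_step htq hd hYN hp)
  by_cases hcase : Y ≤ Y1 ∨ ¬ (∀ e ∈ G, e.card = 2)
  · rwa [topPen, if_pos hcase]
  rw [topPen, if_neg hcase]
  rw [not_or, not_le, not_not] at hcase
  obtain ⟨hY1Y, he⟩ := hcase
  rcases le_or_gt (pen N G B Y w) (inner N Y1 κ G B Y w) with hm | hm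
  · rwa [min_eq_left hm]
  rw [min_eq_right hm.le]
  have hpot1 : exitPot κ G Y < 1 := by
    by_contra hc
    push Not at hc
    have h0 := pen_poly hd.good he hN h4 (by linarith [hd.large]) hYN hp
    have h1 : N ^ 16 * 1 ≤ N ^ 16 * exitPot κ G Y :=
      mul_le_mul_of_nonneg_left hc (by positivity)
    have h2 : N ^ 16 * exitPot κ G Y ≤ inner N Y1 κ G B Y w := by
      have := pen_nonneg (G := G) (B := B) (w := w) hN0 hYN hY hp
      have := capPart_nonneg (G := G) (B := B) (w := w) hY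
      have := mul_nonneg (disc_nonneg hY1.le hY.le) this
      have := mul_nonneg (disc_nonneg hY1.le hY.le) (pen_nonneg (G := G) (B := B) (w := w) hN0 hYN hY hp)
      have := mul_nonneg (sub_nonneg.2 (disc_le_one Y1 Y))
        (capPart_nonneg (G := G) (B := B) (w := w) hY)
      unfold inner
      linarith
    linarith
  have hnice := nice_of_exitPot_lt hY (hN ▸ hN0) hpot1
  rw [← hN] at hnice
  have hdis : Y * psi G Y w ≤ pd G Y w := by
    have := pd_ge hnice hd hE (hN ▸ hYN) (hN ▸ hsmall hY1Y.le)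
    have := mul_nonneg hY.le (psi_nonneg G Y w)
    linarith
  refine le_trans (add_le_add (sum_le_sum fun t _ => topPen_le_inner hN0 hd.nextY_pos
    fun e h => he e (mem_sdiff.1 h).1) le_rfl) ?_
  refine inner_step hd htq hYN hY1 hp hdis ?_ (hpot hY1Y.le hpot1)
  refine le_trans ?_ (hcap.trans (disc_ge hY1 hY hYN hY1N))
  exact mul_le_mul_of_nonneg_left (cap_anti hY1 hY1Y.le) (by norm_num)

/-- The penalty at the complete graph has order `n^{3/2}`. -/
theorem pen_start {n : ℕ} (hn' : (10 : ℝ) ≤ n) :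
    pen (n : ℝ) (complete n) ∅ ((n : ℝ) - 2) (fun _ => 0) ≤
      10 ^ 17 * 900 * 128 * ((n : ℝ) * √n) := by
  have hn : 10 ≤ n := by exact_mod_cast hn'
  set Y := (n : ℝ) - 2 with hYdef
  have hY0 : 0 < Y := by rw [hYdef]; linarith
  have hz : ∀ e ∈ complete n, zeta (complete n) Y e = 1 := fun e he => by
    rw [zeta, deg_complete he, hYdef, Nat.cast_sub (by omega), Nat.cast_ofNat, div_self]
    linarith
  have h1 : psi (complete n) Y (fun _ => 0) = 0 := sum_eq_zero fun e he => by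
    rw [uu, hz e he]; simp [phi_zero]
  have h2 : sq (complete n) (fun _ => (0 : ℝ)) = 0 := sum_eq_zero fun e _ => by simp
  have h3 : taint (complete n) ∅ Y = 0 := by
    rw [taint, inter_empty, card_empty, Nat.cast_zero, zero_add]
    exact sum_eq_zero fun e he => by rw [hz e (mem_sdiff.1 he).1]; simp
  have h4 : tq (complete n) ∅ Y (fun _ => (0 : ℝ)) = 0 :=
    sum_eq_zero fun e _ => by simp [xx]
  rw [pen, h1, h2, h3, h4]
  have hN : (0:ℝ) < n := by linarith
  have hYN : Y ≤ n := by rw [hYdef]; linarith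
  have h2Y : (n : ℝ) ≤ 2 * Y := by rw [hYdef]; linarith
  have he : 1 / 900 ≤ eps (n : ℝ) Y := by
    have k : 1 / 2 ≤ rho (n : ℝ) Y := by
      rw [rho, le_div_iff₀ (cap_pos hY0)]
      have k1 : cap (2 * Y) ≤ cap n := cap_anti hN h2Y
      have k2 : 1 / 2 * cap Y ≤ cap (2 * Y) := by
        rw [cap, cap, Real.mul_rpow (by norm_num) hY0.le]
        refine mul_le_mul_of_nonneg_right ?_ (Real.rpow_nonneg hY0.le _)
        calc (1 / 2 : ℝ) = (2 : ℝ) ^ (-1 : ℝ) := by rw [Real.rpow_neg_one]; norm_num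
          _ ≤ _ := Real.rpow_le_rpow_of_exponent_le (by norm_num) (by norm_num)
      linarith
    unfold eps
    linarith [cap_pos hY0]
  have h5 := cycles_complete_le n (∅ : Finset (Finset (Fin n)))
  have h6 : inv7 Y * (n : ℝ) ^ 5 ≤ 16 * ((n : ℝ) * √n) := by
    rw [inv7, div_mul_eq_mul_div, one_mul, div_le_iff₀ (by positivity)]
    have a1 : √(n : ℝ) ≤ 2 * √Y := by
      rw [Real.sqrt_le_left (by positivity), mul_pow, Real.sq_sqrt hY0.le]; linarith
    have a2 : (n : ℝ) ^ 3 ≤ (2 * Y) ^ 3 := pow_le_pow_left₀ hN.le h2Y 3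
    calc (n : ℝ) ^ 5 = (n : ℝ) ^ 3 * ((n : ℝ) * (√n * √n)) := by
          rw [Real.mul_self_sqrt hN.le]; ring
      _ ≤ (2 * Y) ^ 3 * ((n : ℝ) * (√n * (2 * √Y))) := by gcongr
      _ = _ := by ring
  have h7 : 10 ^ 17 * inv7 Y / eps (n : ℝ) Y * ((cycles (complete n) ∅).card : ℝ) ≤
      10 ^ 17 * 900 * (8 * (inv7 Y * (n : ℝ) ^ 5)) := by
    have i0 : 0 ≤ inv7 Y := by unfold inv7; positivity
    calc _ = 10 ^ 17 * (1 / eps (n : ℝ) Y) * (((cycles (complete n) ∅).card : ℝ) * inv7 Y) := by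
          ring
      _ ≤ 10 ^ 17 * 900 * ((8 * (n : ℝ) ^ 5) * inv7 Y) := by
          gcongr
          · have := eps_pos hN hY0
            rw [div_le_iff₀ this]; linarith
      _ = _ := by ring
  have : 0 ≤ (n : ℝ) * √n := by positivity
  simp only [mul_zero, zero_add, add_zero]
  linarith
theorem capPart_start {n : ℕ} (hn : 10 ≤ n) :
    capPart (complete n) ∅ ((n : ℝ) - 2) (fun _ => (0 : ℝ)) = 0 := by
  have hn' : (10 : ℝ) ≤ n := by exact_mod_cast hn
  have hz : ∀ e ∈ complete n, zeta (complete n) ((n : ℝ) - 2) e = 1 := fun e he => by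
    rw [zeta, deg_complete he, Nat.cast_sub (by omega), Nat.cast_ofNat, div_self]
    linarith
  have h2 : sq (complete n) (fun _ => (0 : ℝ)) = 0 := sum_eq_zero fun e _ => by simp
  have h3 : taint (complete n) ∅ ((n : ℝ) - 2) = 0 := by
    rw [taint, inter_empty, card_empty, Nat.cast_zero, zero_add]
    exact sum_eq_zero fun e he => by rw [hz e (mem_sdiff.1 he).1]; simp
  rw [capPart, h2, h3]; simp

/-- Step A from the exit bound. -/
theorem topCertified_of (h : ExitBound) : TopCertified := by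
  have e : ∀ᶠ x : ℝ in atTop, cap x ≤ 1 / 10 ^ 30 :=
    (tendsto_rpow_neg_atTop (show (0 : ℝ) < 1 / 50 by norm_num)).eventually_le_const (by norm_num)
  obtain ⟨K, hK⟩ := eventually_atTop.1 (e.and (eventually_ge_atTop ((10 : ℝ) ^ 9)))
  refine ⟨K, 10 ^ 32, by norm_num, fun δ hδ => ?_⟩
  set C0 : ℝ := 10 ^ 17 * 900 * 128 with hC0
  have ew : ∀ᶠ x : ℝ in atTop, 2 ≤ x ∧ (2 / x) ^ (1 / 2000 : ℝ) * C0 ≤ δ / 2 := by
    have t1 : Tendsto (fun x : ℝ => (2 / x) ^ (1 / 2000 : ℝ) * C0) atTop (nhds 0) := by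
      have t0 : Tendsto (fun x : ℝ => 2 / x) atTop (nhds 0) :=
        tendsto_const_nhds.div_atTop tendsto_id
      have := (t0.rpow_const (p := (1 / 2000 : ℝ)) (Or.inr (by norm_num))).mul_const C0
      rwa [Real.zero_rpow (by norm_num), zero_mul] at this
    exact (eventually_ge_atTop 2).and (t1.eventually_le_const (by linarith))
  obtain ⟨ω, hω2, hω⟩ := ew.exists
  refine ⟨ω, by linarith, ?_⟩
  obtain ⟨κ, hκ, hexit⟩ := h ω (by linarith)
  have hω0 : 0 < ω := by linarith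
  have hN := tendsto_natCast_atTop_atTop (R := ℝ)
  have hY1 : Tendsto (fun n : ℕ => (n : ℝ) / ω) atTop atTop := hN.atTop_div_const hω0
  have c1 : ∀ᶠ n : ℕ in atTop, 10 ^ 29 * cap ((n : ℝ) / ω) ≤ (1 / ω) ^ (1 / 2000 : ℝ) := by
    have t := (((tendsto_rpow_neg_atTop (show (0 : ℝ) < 1 / 50 by norm_num)).comp hY1).const_mul
      ((10 : ℝ) ^ 29))
    rw [mul_zero] at t
    exact t.eventually_le_const (Real.rpow_pos_of_pos (by positivity) _)
  have c2 : ∀ᶠ n : ℕ in atTop, 1280 * ω ^ 2 * ω ^ κ ≤ (n : ℝ) ^ (1 / 5 : ℝ) :=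
    ((tendsto_rpow_atTop (show (0 : ℝ) < 1 / 5 by norm_num)).comp hN).eventually_ge_atTop _
  have c3 : ∀ᶠ n : ℕ in atTop, (n : ℝ) ^ 16 * (4 * tiny (n : ℝ)) ≤ δ / 2 := by
    have t := (tendsto_rpow_mul_exp_neg_mul_atTop_nhds_zero 320 (1 / 4) (by norm_num)).comp
      ((tendsto_rpow_atTop (show (0 : ℝ) < 1 / 20 by norm_num)).comp hN)
    have t' := t.const_mul 4
    rw [mul_zero] at t'
    refine (t'.eventually_le_const (half_pos hδ)).mono fun n hn => le_trans (le_of_eq ?_) hn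
    simp only [Function.comp, tiny, lam]
    rw [← Real.rpow_natCast, ← Real.rpow_mul (Nat.cast_nonneg n)]
    rw [show (-((n : ℝ) ^ (1 / 20 : ℝ)) / 4) = -(1 / 4) * (n : ℝ) ^ (1 / 20 : ℝ) by ring]
    norm_num
    ring
  filter_upwards [hexit, c1, c2, c3, eventually_ge_atTop (10 ^ 4 : ℕ)] with n ⟨hstep, hst⟩ k1 k2 k3 hn
  have hn' : (10 : ℝ) ^ 4 ≤ n := by exact_mod_cast hn
  have hn0 : (0 : ℝ) < n := lt_of_lt_of_le (by norm_num) hn'
  have hY1N : (n : ℝ) / ω ≤ n := div_le_self hn0.le (by linarith)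
  have hcard : (n : ℝ) = (Fintype.card (Fin n) : ℝ) := by rw [Fintype.card_fin]
  refine ⟨topPen (n : ℝ) ((n : ℝ) / ω) κ, ⟨fun G B Y w hG hY hYN => ?_,
    fun G B Y w _ hG hY hYN => ?_, fun G B Y w hY => ?_,
    fun G B Y w hG hY hYN hT => ?_⟩, ?_⟩
  · obtain ⟨hp, hL⟩ := hK Y hY
    have hY0 : 0 < Y := by linarith
    unfold topPen
    split_ifs
    · exact pen_nonneg hn0 hYN hY0 hp
    · exact le_min (pen_nonneg hn0 hYN hY0 hp) (inner_nonneg hn0 (by positivity) hYN hY0 hp)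
  · obtain ⟨hp, hL⟩ := hK Y hY
    have hY0 : 0 < Y := by linarith
    refine (topPen_ge hn0 (by positivity) hYN hY0 hp fun h1 => ?_).trans
      (le_mul_of_one_le_left ?_ (by norm_num))
    · have a1 : cap Y ≤ cap ((n : ℝ) / ω) := cap_anti (by positivity) h1.le
      have a2 := cap_pos (show (0 : ℝ) < n / ω by positivity)
      refine le_trans ?_ (disc_ge (by positivity) hY0 hYN hY1N)
      refine le_trans ?_ (k1.trans_eq (by congr 1; field_simp))
      linarith
    · unfold topPen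
      split_ifs
      · exact pen_nonneg hn0 hYN hY0 hp
      · exact le_min (pen_nonneg hn0 hYN hY0 hp) (inner_nonneg hn0 (by positivity) hYN hY0 hp)
  · rw [topPen, if_pos (Or.inl hY)]
  · obtain ⟨hp, hL⟩ := hK Y hY
    have hY0 : 0 < Y := by linarith
    rcases (tri G).eq_empty_or_nonempty with h | h
    · simp [h, triNum]
    have hd : Dense G B Y w := ⟨hG, hL, hp.trans (by norm_num), hT, h⟩
    have hr : 1 ≤ (n : ℝ) / Y := (one_le_div hY0).2 hYN
    have hE : 1 ≤ env (n : ℝ) κ Y :=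
      one_le_mul_of_one_le_of_one_le (Real.one_le_rpow (by linarith) (by norm_num))
        (Real.one_le_rpow hr hκ.le)
    refine le_trans (le_trans (le_of_eq ?_) (topPen_step hd (fun _ _ _ _ h => h.tq_step) hcard hn' (by positivity) hY1N
      hYN hp ?_ hE (fun h1 => ?_) (fun h1 h2 => hstep G Y h1 hYN h2))) (le_of_eq ?_)
    · rw [← hd.drop_mul]; ring
    · refine k1.trans_eq ?_
      congr 1
      field_simp
    · have a1 : ((n : ℝ) / Y) ^ κ ≤ ω ^ κ := by
        refine Real.rpow_le_rpow (by linarith) ?_ hκ.le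
        rw [div_le_iff₀ hY0]
        rw [div_le_iff₀ hω0] at h1
        linarith
      have a2 : (n : ℝ) ^ (4 / 5 : ℝ) * (n : ℝ) ^ (1 / 5 : ℝ) = n := by
        rw [← Real.rpow_add hn0]; norm_num
      have a3 : ((n : ℝ) / ω) ^ 2 ≤ Y ^ 2 := pow_le_pow_left₀ (by positivity) h1 2
      refine le_trans ?_ a3
      rw [env, div_pow, le_div_iff₀ (by positivity)]
      calc 1280 * ((n : ℝ) ^ (4 / 5 : ℝ) * ((n : ℝ) / Y) ^ κ * n) * ω ^ 2
          = (n : ℝ) ^ (4 / 5 : ℝ) * (1280 * ω ^ 2 * ((n : ℝ) / Y) ^ κ) * n := by ring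
        _ ≤ (n : ℝ) ^ (4 / 5 : ℝ) * ((n : ℝ) ^ (1 / 5 : ℝ)) * n := by
            gcongr
            exact (mul_le_mul_of_nonneg_left a1 (by positivity)).trans k2
        _ = _ := by rw [a2]; ring
    · rw [mul_add, show triNum G * (10 ^ 32 * drop G Y * ((G.card : ℝ) * cap Y / √Y)) =
        10 ^ 32 * (drop G Y * triNum G) * ((G.card : ℝ) * cap Y / √Y) by ring, hd.drop_mul]
      congr 1
      rw [mul_div_assoc']
      rw [eq_div_iff (Real.sqrt_pos.2 hd.pos).ne']
      rw [show 10 ^ 32 * (2 * (√Y * cap Y * (G.card : ℝ))) * √Y =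
        10 ^ 32 * (2 * (cap Y * G.card)) * (√Y * √Y) by ring, Real.mul_self_sqrt hd.pos.le]
      ring
  · have hn10 : (10 : ℝ) ≤ n := le_trans (by norm_num) hn'
    have hY0 : (0 : ℝ) < (n : ℝ) - 2 := by linarith
    refine (topPen_le_inner (G := complete n) hn0 hY0 (fun e he => (mem_powersetCard.1 (show e ∈ univ.powersetCard 2 from he)).2)).trans ?_
    unfold inner
    rw [capPart_start (by omega), mul_zero, add_zero]
    have hp0 := pen_start hn10
    rw [← hC0] at hp0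
    have hdisc : disc ((n : ℝ) / ω) ((n : ℝ) - 2) ≤ (2 / ω) ^ (1 / 2000 : ℝ) := by
      refine (min_le_right _ _).trans (Real.rpow_le_rpow (by positivity) ?_ (by norm_num))
      rw [div_div, div_le_div_iff₀ (mul_pos hω0 hY0) hω0]
      nlinarith
    have hs : (1 : ℝ) ≤ √n := Real.one_le_sqrt.2 (by linarith)
    have hns : 1 ≤ (n : ℝ) * √n := one_le_mul_of_one_le_of_one_le (by linarith) hs
    have b1 : disc ((n : ℝ) / ω) ((n : ℝ) - 2) *
        pen (n : ℝ) (complete n) ∅ ((n : ℝ) - 2) (fun _ => 0) ≤ δ / 2 * ((n : ℝ) * √n) :=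
      calc _ ≤ disc ((n : ℝ) / ω) ((n : ℝ) - 2) * (C0 * ((n : ℝ) * √n)) :=
            mul_le_mul_of_nonneg_left hp0 (disc_nonneg (by positivity) hY0.le)
        _ ≤ (2 / ω) ^ (1 / 2000 : ℝ) * (C0 * ((n : ℝ) * √n)) :=
            mul_le_mul_of_nonneg_right hdisc (by positivity)
        _ = (2 / ω) ^ (1 / 2000 : ℝ) * C0 * ((n : ℝ) * √n) := by ring
        _ ≤ _ := mul_le_mul_of_nonneg_right hω (by positivity)
    have b2 : (n : ℝ) ^ 16 * exitPot κ (complete n) ((n : ℝ) - 2) ≤ δ / 2 * ((n : ℝ) * √n) :=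
      ((mul_le_mul_of_nonneg_left hst (by positivity)).trans k3).trans
        (le_mul_of_one_le_right (by linarith) hns)
    linarith

end Vale.Agent.P046.Sharp.Top
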