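import Vale.Agent.P046.Sharp.Sums

/-!
P046: on a pseudo-random state the dissipation beats the potential, `pd ≥ (3/2) Y ψ`.
The link matrix of a vertex, minus its density, has a small square.
-/

open Finset

namespace Vale.Agent.P046.Sharp.Top

variable {α : Type*} [DecidableEq α] [Fintype α] {G B : Finset (Finset α)} {Y E : ℝ}
  {w : Finset α → ℝ}

/-- The vertices joined to all of `S`. -/
def com (G : Finset (Finset α)) (S : Finset α) : Finset α :=
  univ.filter fun c => ∀ x ∈ S, ({x, c} : Finset α) ∈ G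

/-- The number of common neighbours of `j` vertices at scale `Y`. -/
noncomputable def pred (N Y : ℝ) (j : ℕ) : ℝ := N * √(Y / N) ^ j

/-- Pseudo-randomness at scale `Y` with error `E`. -/
structure Nice (G : Finset (Finset α)) (Y E : ℝ) : Prop where
  edges : ∀ e ∈ G, e.card = 2
  dev : ∀ S : Finset α, 1 ≤ S.card → S.card ≤ 3 →
    |((com G S).card : ℝ) - pred (Fintype.card α) Y S.card| ≤ E

theorem not_mem_com (h : ∀ e ∈ G, e.card = 2) {S : Finset α} {c : α} (hc : c ∈ com G S) :
    c ∉ S := fun hcS => by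
  have := h _ ((mem_filter.1 hc).2 c hcS)
  simp at this

theorem card_com_pair (h : ∀ e ∈ G, e.card = 2) {a b : α} (hab : ({a, b} : Finset α) ∈ G) :
    (com G {a, b}).card = deg G {a, b} := by
  have hne : a ≠ b := fun e => by have := h _ hab; simp [e] at this
  refine card_bij (fun c _ => insert c {a, b}) (fun c hc => ?_) (fun c hc d hd hcd => ?_)
    (fun t ht => ?_)
  · obtain ⟨-, hc'⟩ := mem_filter.1 hc
    have hcn := not_mem_com h hc
    simp only [mem_insert, mem_singleton, not_or] at hcn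
    refine mem_filter.2 ⟨mem_tri.2 ⟨by rw [card_insert_of_notMem (by simp [hcn]),
      card_pair hne], fun e he => ?_⟩, mem_powersetCard.2 ⟨subset_insert _ _, card_pair hne⟩⟩
    obtain ⟨hsub, h2⟩ := mem_powersetCard.1 he
    obtain ⟨x, y, hxy, rfl⟩ := card_eq_two.1 h2
    have ha := hc' a (by simp)
    have hb := hc' b (by simp)
    simp only [insert_subset_iff, mem_insert, mem_singleton, singleton_subset_iff] at hsub
    obtain ⟨hx, hy⟩ := hsub
    rcases hx with rfl | rfl | rfl <;> rcases hy with rfl | rfl | rfl <;>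
      first
      | exact absurd rfl hxy
      | assumption
      | (rw [pair_comm]; assumption)
  · have := not_mem_com h hc
    have hd' : c ∈ insert d ({a, b} : Finset α) := hcd ▸ mem_insert_self c _
    rcases mem_insert.1 hd' with h1 | h1
    · exact h1
    · exact absurd h1 this
  · obtain ⟨ht, hs⟩ := mem_filter.1 ht
    obtain ⟨hc3, hts⟩ := mem_tri.1 ht
    obtain ⟨hsub, -⟩ := mem_powersetCard.1 hs
    obtain ⟨c, hc⟩ := card_eq_one.1
      (show (t \ {a, b}).card = 1 by rw [card_sdiff_of_subset hsub, hc3, card_pair hne])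
    have hct : c ∈ t \ ({a, b} : Finset α) := by rw [hc]; exact mem_singleton_self c
    obtain ⟨hct, hcn⟩ := mem_sdiff.1 hct
    refine ⟨c, mem_filter.2 ⟨mem_univ c, fun x hx => hts ?_⟩, ?_⟩
    · exact mem_powersetCard.2 ⟨insert_subset_iff.2 ⟨hsub hx, singleton_subset_iff.2 hct⟩,
        card_pair fun e : x = c => hcn (e ▸ hx)⟩
    · rw [← union_sdiff_of_subset hsub, hc, union_comm, ← insert_eq]

theorem pred_two {N Y : ℝ} (hN : 0 < N) (hY : 0 ≤ Y) : pred N Y 2 = Y := by
  rw [pred, Real.sq_sqrt (by positivity)]; field_simp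

theorem Nice.deg_dev (h : Nice G Y E) (hY : 0 ≤ Y) {e : Finset α} (he : e ∈ G) :
    |(deg G e : ℝ) - Y| ≤ E := by
  obtain ⟨a, b, hab, rfl⟩ := card_eq_two.1 (h.edges e he)
  have hN : (0 : ℝ) < Fintype.card α := by
    exact_mod_cast Fintype.card_pos_iff.2 ⟨a⟩
  have := h.dev {a, b} (by rw [card_pair hab]; norm_num) (by rw [card_pair hab]; norm_num)
  rwa [card_com_pair h.edges he, card_pair hab, pred_two hN hY] at this

/-- The centred link matrix of `v`. -/
noncomputable def cen (G : Finset (Finset α)) (q : ℝ) (a b : α) : ℝ :=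
  (if ({a, b} : Finset α) ∈ G then 1 else 0) - q

/-- The quadratic form of a link is almost nonnegative. -/
theorem link_form (h : Nice G Y E) (hY : 0 < Y) (hE : 1 ≤ E) (hYN : Y ≤ Fintype.card α)
    (hsmall : 1280 * (E * Fintype.card α) ≤ Y ^ 2) (v : α) (x : α → ℝ) :
    -(Y / 16) * ∑ a ∈ com G {v}, x a ^ 2 ≤
      ∑ a ∈ com G {v}, ∑ b ∈ com G {v}, (if ({a, b} : Finset α) ∈ G then x a * x b else 0) := by
  set N := (Fintype.card α : ℝ) with hN
  have hN0 : 0 < N := hY.trans_le hYN
  set L := com G {v} with hL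
  set q := √(Y / N) with hq
  have hq0 : 0 ≤ q := Real.sqrt_nonneg _
  have hq1 : q ≤ 1 := Real.sqrt_le_one.2 (by rw [div_le_one hN0]; exact hYN)
  have hqq : q ^ 2 * N = Y := by rw [hq, Real.sq_sqrt (by positivity)]; field_simp
  have hLdev : |(L.card : ℝ) - N * q| ≤ E := by
    have := h.dev {v} (by simp) (by simp)
    rw [card_singleton, pred, pow_one] at this
    exact this
  have hLN : (L.card : ℝ) ≤ N := Nat.cast_le.2 (card_le_univ L)
  have hsq : ∀ a b, cen G q a b ^ 2 ≤ 1 := fun a b => by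
    unfold cen; split_ifs <;> nlinarith
  have entry : ∀ a ∈ L, ∀ b ∈ L, |∑ c ∈ L, cen G q c a * cen G q c b| ≤
      4 * E + if a = b then N else 0 := by
    intro a ha b hb
    split_ifs with hab
    · subst hab
      rw [abs_of_nonneg (sum_nonneg fun c _ => mul_self_nonneg _)]
      refine le_trans (sum_le_sum (g := fun _ => (1 : ℝ)) fun c _ => by
        have := hsq c a; linarith) ?_
      rw [sum_const, nsmul_one]; linarith
    · have hva : ({v, a} : Finset α) ∈ G := (mem_filter.1 ha).2 v (by simp)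
      have hvb : ({v, b} : Finset α) ∈ G := (mem_filter.1 hb).2 v (by simp)
      have cnt : ∀ {a : α}, ({v, a} : Finset α) ∈ G →
          ∑ c ∈ L, (if ({c, a} : Finset α) ∈ G then (1 : ℝ) else 0) = deg G {v, a} := by
        intro a hva
        rw [sum_boole, ← card_com_pair h.edges hva]
        congr 2
        ext c
        simp only [hL, com, mem_filter, mem_univ, true_and, mem_singleton, forall_eq, mem_insert,
          forall_eq_or_imp, pair_comm a c]
      have hX : ∑ c ∈ L, (if ({c, a} : Finset α) ∈ G then (1 : ℝ) else 0) *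
          (if ({c, b} : Finset α) ∈ G then (1 : ℝ) else 0) = (com G {v, a, b}).card := by
        simp only [ite_mul, one_mul, zero_mul, ← ite_and, sum_boole]
        congr 2
        ext c
        simp only [hL, com, mem_filter, mem_univ, true_and, mem_singleton, forall_eq, mem_insert,
          forall_eq_or_imp, pair_comm a c, pair_comm b c]
      have hcard : ({v, a, b} : Finset α).card = 3 := by
        have h1 := not_mem_com h.edges ha
        have h2 := not_mem_com h.edges hb
        simp only [mem_singleton] at h1 h2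
        rw [card_eq_three]
        exact ⟨v, a, b, Ne.symm h1, Ne.symm h2, hab, rfl⟩
      have h3 := h.dev {v, a, b} (by omega) (by omega)
      rw [hcard, pred, ← hq, show N * q ^ 3 = q * Y by rw [← hqq]; ring] at h3
      have h4 := h.deg_dev hY.le hva
      have h5 := h.deg_dev hY.le hvb
      have e1 : ∑ c ∈ L, cen G q c a * cen G q c b =
          (com G {v, a, b}).card - q * deg G {v, a} - q * deg G {v, b} + L.card * q ^ 2 := by
        simp only [cen, sub_mul, mul_sub, sum_sub_distrib, hX, ← mul_sum, ← sum_mul,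
          cnt hva, cnt hvb, sum_const, nsmul_eq_mul]
        ring
      rw [e1, show ((com G {v, a, b}).card : ℝ) - q * deg G {v, a} - q * deg G {v, b}
          + L.card * q ^ 2 =
          ((com G {v, a, b}).card - q * Y) - q * ((deg G {v, a} : ℝ) - Y)
            - q * ((deg G {v, b} : ℝ) - Y) + q ^ 2 * ((L.card : ℝ) - N * q) by
        linear_combination q * hqq]
      obtain ⟨p1, p2⟩ := abs_le.1 h3
      obtain ⟨p3, p4⟩ := abs_le.1 h4
      obtain ⟨p5, p6⟩ := abs_le.1 h5
      obtain ⟨p7, p8⟩ := abs_le.1 hLdev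
      have q2 : q ^ 2 ≤ 1 := pow_le_one₀ hq0 hq1
      rw [abs_le]
      constructor <;> nlinarith
  -- the square of the centred matrix
  have hSnn : 0 ≤ ∑ a ∈ L, x a ^ 2 := sum_nonneg fun _ _ => sq_nonneg _
  have hnorm : ∑ c ∈ L, (∑ a ∈ L, cen G q c a * x a) ^ 2 ≤
      5 * (E * N) * ∑ a ∈ L, x a ^ 2 := by
    have e : ∑ c ∈ L, (∑ a ∈ L, cen G q c a * x a) ^ 2 =
        ∑ a ∈ L, ∑ b ∈ L, x a * x b * ∑ c ∈ L, cen G q c a * cen G q c b := by
      simp only [pow_two, sum_mul_sum]
      simp only [mul_sum]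
      rw [sum_comm]
      refine sum_congr rfl fun a _ => ?_
      rw [sum_comm]
      exact sum_congr rfl fun b _ => sum_congr rfl fun c _ => by ring
    have hb : ∀ a ∈ L, ∀ b ∈ L, x a * x b * ∑ c ∈ L, cen G q c a * cen G q c b ≤
        4 * E * (|x a| * |x b|) + if a = b then N * x a ^ 2 else 0 := by
      intro a ha b hb
      refine (le_abs_self _).trans ?_
      rw [abs_mul, abs_mul]
      refine (mul_le_mul_of_nonneg_left (entry a ha b hb) (by positivity)).trans (le_of_eq ?_)
      split_ifs with hab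
      · subst hab; rw [← sq_abs (x a)]; ring
      · ring
    rw [e]
    refine (sum_le_sum fun a ha => sum_le_sum (hb a ha)).trans ?_
    simp only [sum_add_distrib, ← mul_sum, sum_ite_eq, ← sum_mul]
    have cs : (∑ a ∈ L, |x a|) * (∑ a ∈ L, |x a|) ≤ N * ∑ a ∈ L, x a ^ 2 := by
      rw [← pow_two]
      refine sq_sum_le_card_mul_sum_sq.trans ?_
      simp only [sq_abs]
      exact mul_le_mul_of_nonneg_right hLN hSnn
    rw [sum_congr rfl fun a ha => if_pos ha, ← mul_sum]
    have := mul_le_mul_of_nonneg_left cs (show 0 ≤ 4 * E by linarith)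
    have := mul_le_mul_of_nonneg_right hE (mul_nonneg hN0.le hSnn)
    linarith
  have hsplit : ∑ a ∈ L, ∑ b ∈ L, (if ({a, b} : Finset α) ∈ G then x a * x b else 0) =
      ∑ a ∈ L, x a * ∑ b ∈ L, cen G q a b * x b + q * (∑ a ∈ L, x a) ^ 2 := by
    rw [pow_two, sum_mul_sum, mul_sum, ← sum_add_distrib]
    refine sum_congr rfl fun a _ => ?_
    rw [mul_sum, mul_sum, ← sum_add_distrib]
    refine sum_congr rfl fun b _ => ?_
    unfold cen
    split_ifs <;> ring
  rw [hsplit]
  have h1 : 0 ≤ q * (∑ a ∈ L, x a) ^ 2 := by positivity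
  have h2 : -(Y / 16) * ∑ a ∈ L, x a ^ 2 ≤ ∑ a ∈ L, x a * ∑ b ∈ L, cen G q a b * x b := by
    -- two-term Cauchy–Schwarz with weight `Y / 16`
    have h3 : ∑ a ∈ L, -((Y / 32) * x a ^ 2 + 8 / Y * (∑ b ∈ L, cen G q a b * x b) ^ 2) ≤
        ∑ a ∈ L, x a * ∑ b ∈ L, cen G q a b * x b := by
      refine sum_le_sum fun a _ => ?_
      set z := ∑ b ∈ L, cen G q a b * x b
      have : 0 ≤ (Y / 32 * x a + z / 2) ^ 2 / (Y / 32) := by positivity
      have e : (Y / 32 * x a + z / 2) ^ 2 / (Y / 32) =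
          Y / 32 * x a ^ 2 + x a * z + 8 / Y * z ^ 2 := by field_simp; ring
      linarith
    rw [sum_neg_distrib, sum_add_distrib, ← mul_sum, ← mul_sum] at h3
    have h4 : 8 / Y * ∑ c ∈ L, (∑ a ∈ L, cen G q c a * x a) ^ 2 ≤
        Y / 32 * ∑ a ∈ L, x a ^ 2 := by
      refine (mul_le_mul_of_nonneg_left hnorm (by positivity)).trans ?_
      rw [← mul_assoc]
      refine mul_le_mul_of_nonneg_right ?_ hSnn
      rw [div_mul_eq_mul_div, div_le_iff₀ hY]
      linarith
    linarith
  linarith

omit [Fintype α] in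
/-- Twice the products of the two sides of `t` at each vertex. -/
theorem sq_sum_sides {t : Finset α} (ht : t.card = 3) (f : Finset α → ℝ) :
    (∑ i ∈ sides t, f i) ^ 2 = ∑ i ∈ sides t, f i ^ 2 +
      ∑ v ∈ t, ∑ p ∈ (t.erase v).offDiag, f {v, p.1} * f {v, p.2} := by
  obtain ⟨a, b, c, hab, hac, hbc, rfl⟩ := card_eq_three.1 ht
  have hs : sides ({a, b, c} : Finset α) = {{a, b}, {a, c}, {b, c}} := by
    refine (eq_of_subset_of_card_le (fun e he => ?_) ?_).symm
    · simp only [mem_insert, mem_singleton] at he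
      rcases he with rfl | rfl | rfl <;>
        simp [sides, mem_powersetCard, card_pair, insert_subset_iff, hab, hac, hbc]
    · rw [sides, card_powersetCard, ht, Nat.choose_succ_self_right,
        card_eq_three.2 ⟨_, _, _, ?_, ?_, ?_, rfl⟩]
      · intro h; have := h ▸ (by simp : b ∈ ({a, b} : Finset α)); simp [hbc, hab.symm] at this
      · intro h; have := h ▸ (by simp : a ∈ ({a, b} : Finset α)); simp [hab, hac] at this
      · intro h; have := h ▸ (by simp : a ∈ ({a, c} : Finset α)); simp [hab, hac] at this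
  have pairs : ∀ (x y : α), x ≠ y → ({x, y} : Finset α).offDiag = {(x, y), (y, x)} := by
    intro x y hxy
    ext ⟨p, r⟩
    simp only [mem_offDiag, mem_insert, mem_singleton, Prod.mk.injEq]
    constructor
    · rintro ⟨rfl | rfl, rfl | rfl, h⟩ <;> simp_all
    · rintro (⟨rfl, rfl⟩ | ⟨rfl, rfl⟩) <;> simp [hxy, Ne.symm hxy]
  have d1 : ({a, b} : Finset α) ∉ ({{a, c}, {b, c}} : Finset (Finset α)) := by
    simp only [mem_insert, mem_singleton, not_or]
    constructor <;> intro h
    · have := h ▸ (by simp : b ∈ ({a, b} : Finset α)); simp [hbc, hab.symm] at this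
    · have := h ▸ (by simp : a ∈ ({a, b} : Finset α)); simp [hab, hac] at this
  have d2 : ({a, c} : Finset α) ∉ ({{b, c}} : Finset (Finset α)) := by
    simp only [mem_singleton]
    intro h
    have := h ▸ (by simp : a ∈ ({a, c} : Finset α)); simp [hab, hac] at this
  have ea : ({a, b, c} : Finset α).erase a = {b, c} := by
    rw [erase_insert (by simp [hab, hac])]
  have eb : ({a, b, c} : Finset α).erase b = {a, c} := by
    ext x; simp only [mem_erase, mem_insert, mem_singleton]; constructor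
    · rintro ⟨h, rfl | rfl | rfl⟩ <;> simp_all
    · rintro (rfl | rfl) <;> simp [hab, hbc.symm]
  have ec : ({a, b, c} : Finset α).erase c = {a, b} := by
    ext x; simp only [mem_erase, mem_insert, mem_singleton]; constructor
    · rintro ⟨h, rfl | rfl | rfl⟩ <;> simp_all
    · rintro (rfl | rfl) <;> simp [hac, hbc]
  rw [hs, sum_insert d1, sum_insert d2, sum_singleton, sum_insert d1, sum_insert d2, sum_singleton,
    sum_insert (by simp [hab, hac]), sum_insert (by simp [hbc]), sum_singleton, ea, eb, ec,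
    pairs b c hbc, pairs a c hac, pairs a b hab]
  have q1 : ∀ x y : α, x ≠ y → (x, y) ∉ ({(y, x)} : Finset (α × α)) := fun x y h => by simp [h]
  rw [sum_insert (q1 _ _ hbc), sum_insert (q1 _ _ hac), sum_insert (q1 _ _ hab), sum_singleton,
    sum_singleton, sum_singleton, pair_comm b a, pair_comm c a, pair_comm c b]
  ring

theorem sum_link (h : ∀ e ∈ G, e.card = 2) (f : α → α → α → ℝ) :
    ∑ t ∈ tri G, ∑ v ∈ t, ∑ p ∈ (t.erase v).offDiag, f v p.1 p.2 =
      ∑ v, ∑ a ∈ com G {v}, ∑ b ∈ com G {v},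
        (if ({a, b} : Finset α) ∈ G then f v a b else 0) := by
  classical
  simp only [sum_ite, sum_const_zero, add_zero]
  rw [sum_comm' (t' := univ) (s' := fun v => (tri G).filter (v ∈ ·))]
  · refine sum_congr rfl fun v _ => ?_
    rw [sum_sigma', sum_sigma']
    refine sum_nbij' (fun q => ⟨q.2.1, q.2.2⟩) (fun p => ⟨{v, p.1, p.2}, (p.1, p.2)⟩) ?_ ?_ ?_ ?_
      (fun q _ => rfl)
    · rintro ⟨t, a, b⟩ hq
      simp only [mem_sigma, mem_filter, mem_offDiag, mem_erase] at hq
      obtain ⟨⟨ht, hv⟩, ⟨hav, ha⟩, ⟨hbv, hb⟩, hab⟩ := hq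
      have hs := (mem_tri.1 ht).2
      have side : ∀ x y, x ∈ t → y ∈ t → x ≠ y → ({x, y} : Finset α) ∈ G := fun x y hx hy hxy =>
        hs (mem_powersetCard.2 ⟨by simp [insert_subset_iff, hx, hy], card_pair hxy⟩)
      simp only [mem_sigma, mem_filter, com, mem_univ, true_and, mem_singleton, forall_eq]
      exact ⟨side v a hv ha (Ne.symm hav), side v b hv hb (Ne.symm hbv), side a b ha hb hab⟩
    · rintro ⟨a, b⟩ hp
      simp only [mem_sigma, mem_filter, com, mem_univ, true_and, mem_singleton, forall_eq] at hp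
      obtain ⟨ha, hb, hab⟩ := hp
      have n1 : v ≠ a := fun e => by have := h _ ha; simp [e] at this
      have n2 : v ≠ b := fun e => by have := h _ hb; simp [e] at this
      have n3 : a ≠ b := fun e => by have := h _ hab; simp [e] at this
      simp only [mem_sigma, mem_filter, mem_offDiag, mem_erase]
      refine ⟨⟨mem_tri.2 ⟨card_eq_three.2 ⟨v, a, b, n1, n2, n3, rfl⟩, fun e he => ?_⟩, by simp⟩,
        ⟨Ne.symm n1, by simp⟩, ⟨Ne.symm n2, by simp⟩, n3⟩
      obtain ⟨hsub, h2⟩ := mem_powersetCard.1 he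
      obtain ⟨x, y, hxy, rfl⟩ := card_eq_two.1 h2
      simp only [insert_subset_iff, mem_insert, mem_singleton, singleton_subset_iff] at hsub
      obtain ⟨hx, hy⟩ := hsub
      rcases hx with rfl | rfl | rfl <;> rcases hy with rfl | rfl | rfl <;>
        first
        | exact absurd rfl hxy
        | assumption
        | (rw [pair_comm]; assumption)
    · rintro ⟨t, a, b⟩ hq
      simp only [mem_sigma, mem_filter, mem_offDiag, mem_erase] at hq
      obtain ⟨⟨ht, hv⟩, ⟨hav, ha⟩, ⟨hbv, hb⟩, hab⟩ := hq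
      have : ({v, a, b} : Finset α) = t :=
        eq_of_subset_of_card_le (by simp [insert_subset_iff, hv, ha, hb])
          (by rw [(mem_tri.1 ht).1, card_eq_three.2 ⟨v, a, b, Ne.symm hav, Ne.symm hbv, hab, rfl⟩])
      simp [this]
    · rintro ⟨a, b⟩ _
      rfl
  · intro t v
    simp only [mem_filter, mem_univ, and_true]

theorem com_edge_sum (h : ∀ e ∈ G, e.card = 2) (g : Finset α → ℝ) :
    ∑ v, ∑ a ∈ com G {v}, g {v, a} = 2 * ∑ e ∈ G, g e := by
  classical
  rw [mul_sum, sum_congr rfl fun e he => show 2 * g e = ∑ _v ∈ e, g e by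
    rw [sum_const, h e he, nsmul_eq_mul]; norm_num]
  rw [sum_comm' (t' := univ) (s' := fun v => G.filter (v ∈ ·))]
  · refine sum_congr rfl fun v _ => sum_bij (fun a _ => {v, a}) (fun a ha => ?_)
      (fun a ha b hb hab => ?_) (fun e he => ?_) fun a _ => rfl
    · exact mem_filter.2 ⟨(mem_filter.1 ha).2 v (by simp), by simp⟩
    · have hav := not_mem_com h ha
      simp only [mem_singleton] at hav
      have h1 : a ∈ ({v, b} : Finset α) := hab ▸ by simp
      simpa [hav] using h1
    · obtain ⟨he, hv⟩ := mem_filter.1 he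
      obtain ⟨a, ha⟩ := card_eq_one.1
        (show (e.erase v).card = 1 by rw [card_erase_of_mem hv, h e he])
      have e1 : ({v, a} : Finset α) = e := by
        rw [← insert_erase hv, ha]
      refine ⟨a, mem_filter.2 ⟨mem_univ a, ?_⟩, e1⟩
      simp only [mem_singleton, forall_eq]
      rwa [e1]
  · intro e v
    simp only [mem_filter, mem_univ, and_true]

theorem term_lower {u Z μ : ℝ} (hu : |u| ≤ μ) (hμ : μ ≤ 1 / 100) (hZ : |Z - u| ≤ 2 * μ) :
    2 * u * Z - 12 * μ * u ^ 2 ≤ term (1 + u) (Z + 3) := by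
  obtain ⟨u1, u2⟩ := abs_le.1 hu
  have h1 : 0 < 1 + u := by linarith
  have hr : |dphi u - 2 * u| ≤ 3 * u ^ 2 := by
    unfold dphi
    rcases le_or_gt 0 u with h | h
    · rw [if_pos h, show 1 - 1 / (1 + u) ^ 2 - 2 * u =
        -(u ^ 2 * (3 + 2 * u) / (1 + u) ^ 2) by field_simp; ring, abs_neg,
        abs_of_nonneg (by positivity), div_le_iff₀ (by positivity)]
      nlinarith [mul_nonneg (mul_nonneg (sq_nonneg u) h) (show 0 ≤ 4 + 3 * u by linarith)]
    · rw [if_neg (not_le.2 h), if_pos (by linarith), sub_self, abs_zero]; positivity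
  have hp : 2 * u ^ 2 * (1 - 3 * μ) ≤ phi u * (1 + 1 / (1 + u)) := by
    have e : phi u * (1 + 1 / (1 + u)) = phi u * (2 + u) / (1 + u) := by field_simp; ring
    rw [e, le_div_iff₀ h1]
    unfold phi
    rcases le_or_gt 0 u with h | h
    · rw [if_pos h, div_mul_eq_mul_div, le_div_iff₀ h1]
      have : (1 - 3 * μ) * (1 + u) * (1 + u) ≤ 1 + u / 2 := by nlinarith
      calc 2 * u ^ 2 * (1 - 3 * μ) * (1 + u) * (1 + u)
          = 2 * u ^ 2 * ((1 - 3 * μ) * (1 + u) * (1 + u)) := by ring
        _ ≤ 2 * u ^ 2 * (1 + u / 2) := mul_le_mul_of_nonneg_left this (by positivity)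
        _ = _ := by ring
    · rw [if_neg (not_le.2 h), if_pos (by linarith)]
      calc 2 * u ^ 2 * (1 - 3 * μ) * (1 + u) = u ^ 2 * (2 * (1 - 3 * μ) * (1 + u)) := by ring
        _ ≤ _ := mul_le_mul_of_nonneg_left (by nlinarith) (sq_nonneg u)
  have hx : -(6 * μ * u ^ 2) ≤ (dphi u - 2 * u) * (Z - u) := by
    refine le_trans ?_ (neg_abs_le _)
    rw [abs_mul, neg_le_neg_iff]
    exact (mul_le_mul hr hZ (abs_nonneg _) (by positivity)).trans_eq (by ring)
  unfold term
  rw [show 1 + u - 1 = u by ring, show Z + 3 - (1 + u) - 2 = Z - u by ring]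
  linarith

/-- On a pseudo-random state the dissipation beats the potential. -/
theorem pd_ge (h : Nice G Y E) (hd : Dense G B Y w) (hE : 1 ≤ E) (hYN : Y ≤ Fintype.card α)
    (hsmall : 1280 * (E * Fintype.card α) ≤ Y ^ 2) :
    3 / 2 * (Y * psi G Y w) ≤ pd G Y w := by
  have hY := hd.pos
  have hEY : E ≤ Y / 1280 := by
    have : E * Y ≤ E * Fintype.card α := mul_le_mul_of_nonneg_left hYN (by linarith)
    by_contra hc
    push Not at hc
    nlinarith
  set u : Finset α → ℝ := fun e => uu G Y w e with hu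
  have hz : ∀ e ∈ G, |zeta G Y e - 1| ≤ 1 / 1280 := fun e he => by
    rw [zeta, div_sub_one hY.ne', abs_div, abs_of_pos hY, div_le_iff₀ hY]
    exact (h.deg_dev hY.le he).trans (by linarith)
  have hub : ∀ e ∈ G, |u e| ≤ 1 / 300 := fun e he => by
    obtain ⟨a1, a2⟩ := abs_le.1 (hz e he)
    obtain ⟨b1, b2⟩ := abs_le.1 (hd.w_small e)
    rw [abs_le, hu]
    simp only [uu]
    constructor <;> nlinarith
  have hpt : ∀ t ∈ tri G, 2 * (∑ i ∈ sides t, u i) ^ 2 - 1 / 25 * ∑ i ∈ sides t, u i ^ 2 ≤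
      pt G Y w t := fun t ht => by
    have hS : sideA G Y w t = ∑ i ∈ sides t, u i + 3 := by
      simp only [hu, uu_eq, sum_sub_distrib, sum_const, card_sides ht, sideA]
      norm_num
    rw [show 2 * (∑ i ∈ sides t, u i) ^ 2 - 1 / 25 * ∑ i ∈ sides t, u i ^ 2 =
        ∑ i ∈ sides t, (2 * u i * (∑ j ∈ sides t, u j) - 1 / 25 * u i ^ 2) by
      rw [sum_sub_distrib, ← sum_mul, ← mul_sum, ← mul_sum]; ring, pt, hS]
    refine sum_le_sum fun i hi => ?_
    have hiG := (mem_tri.1 ht).2 hi
    have hzu : |∑ j ∈ sides t, u j - u i| ≤ 2 * (1 / 300) := by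
      rw [← sum_erase_eq_sub hi]
      refine (abs_sum_le_sum_abs _ _).trans ((sum_le_sum fun j hj =>
        hub j ((mem_tri.1 ht).2 (mem_of_mem_erase hj))).trans ?_)
      rw [sum_const, card_erase_of_mem hi, card_sides ht]; norm_num
    have := term_lower (hub i hiG) (by norm_num) hzu
    have e : aa G Y w i = 1 + u i := by simp only [hu, uu_eq]; ring
    rw [e]
    linarith
  have hsum := sum_le_sum hpt
  simp only [sum_sub_distrib, ← mul_sum] at hsum
  rw [sum_congr rfl fun t ht => sq_sum_sides (mem_tri.1 ht).1 u, sum_add_distrib, sum_tri_sides,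
    sum_link h.edges (fun v a b => u {v, a} * u {v, b})] at hsum
  have h1 : -(Y / 8) * ∑ e ∈ G, u e ^ 2 ≤ ∑ v, ∑ a ∈ com G {v}, ∑ b ∈ com G {v},
      (if ({a, b} : Finset α) ∈ G then u {v, a} * u {v, b} else 0) := by
    refine le_trans (le_of_eq ?_) (sum_le_sum fun v _ =>
      link_form h hY hE hYN hsmall v fun a => u {v, a})
    rw [← mul_sum, com_edge_sum h.edges (fun e => u e ^ 2)]
    ring
  have h2 : (Y - Y / 1280) * ∑ e ∈ G, u e ^ 2 ≤ ∑ e ∈ G, (deg G e : ℝ) * u e ^ 2 := by
    rw [mul_sum]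
    refine sum_le_sum fun e he => mul_le_mul_of_nonneg_right ?_ (sq_nonneg _)
    linarith [(abs_le.1 (h.deg_dev hY.le he)).1]
  have h3 : psi G Y w ≤ ∑ e ∈ G, u e ^ 2 := by
    refine sum_le_sum fun e he => ?_
    obtain ⟨a1, a2⟩ := abs_le.1 (hub e he)
    show phi (u e) ≤ u e ^ 2
    unfold phi
    split_ifs with c1 c2
    · exact div_le_self (sq_nonneg _) (by linarith)
    · exact le_rfl
    · linarith
  have h4 : 0 ≤ ∑ e ∈ G, u e ^ 2 := sum_nonneg fun _ _ => sq_nonneg _
  have h5 := mul_le_mul_of_nonneg_left h3 (show 0 ≤ 3 / 2 * Y by linarith)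
  have h6 : 0 ≤ Y * ∑ e ∈ G, u e ^ 2 := mul_nonneg hY.le h4
  change ∑ t ∈ tri G, pt G Y w t ≥ _ at hsum
  unfold pd
  linarith

end Vale.Agent.P046.Sharp.Top
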