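import Vale.Agent.P046.Sharp.Cert

/-! P046: the unused slack of the penalty step, for a strict decrease in the top window. -/

open Finset

namespace Vale.Agent.P046.Sharp

variable {α : Type*} [DecidableEq α] [Fintype α] {G B : Finset (Finset α)} {Y N : ℝ}
  {w : Finset α → ℝ}

/-- One dense step of the penalty, keeping the slack. -/
theorem pen_slack (htq : TqBound α) (hd : Dense G B Y w) (hYN : Y ≤ N)
    (hp : cap Y ≤ 1 / 10 ^ 30) (hdis : Y * psi G Y w ≤ pd G Y w) :
    ∑ t ∈ tri G, pen N (G \ sides t) (nextB G B Y t) (nextY G Y) (nextW G B Y w t)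
        + 2 * Y * (√Y * cap Y) * (psi G Y w + sq G w) + Y / 1000 * pen N G B Y w
        + 1 / 2 * (√Y * pd G Y w) ≤
      triNum G * pen N G B Y w + 10 ^ 32 * (2 * (√Y * cap Y * G.card)) := by
  have hY := hd.pos
  have hN : 0 < N := hY.trans_le hYN
  have hc := cap_pos hY
  have hs := hd.drop_nonneg
  have hs1 := hd.drop_small
  have hQ := hd.triNum_pos
  have hL := hd.large
  obtain ⟨mb, mb2, mR, mT, mW⟩ := coef_moves hN hY hYN hp hs hs1
  obtain ⟨hb1, hb2⟩ := beta_range hN hY hYN hp
  obtain ⟨hbk, hpdle, hbψ, hbq⟩ := hd.bulk_parts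
  have hψ := psi_nonneg G Y w
  have hq2 := sq_nonneg' G w
  have hΓ := taint_nonneg G B Y
  have hT := tq_nonneg G B Y w
  have hpd := hd.pd_nonneg
  have hy : 0 < √Y := Real.sqrt_pos.2 hY
  have he := eps_pos hN hY
  have hYp := inv_le_cap_sq (show (1 : ℝ) ≤ Y by linarith)
  have hpY2 : 2 ≤ cap Y * Y := by
    rw [div_le_iff₀ hY] at hYp
    have : cap Y * (cap Y * Y) ≤ 1 / 10 ^ 30 * (cap Y * Y) :=
      mul_le_mul_of_nonneg_right hp (by positivity)
    linarith
  -- the sources
  set Bu := Y * psi G Y w + Y * sq G w + Y * taint G B Y + pd G Y w + (G.card : ℝ) with hBu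
  have hc2 : cap Y ^ 2 ≤ 1 / 10 ^ 50 := by
    refine (pow_le_pow_left₀ hc.le hp 2).trans ?_
    norm_num
  have hbud : budget G B Y w ≤ 2 * cap Y * Bu := by
    unfold budget bulk
    rw [hBu]
    have := mul_le_mul_of_nonneg_right hc2 (mul_nonneg hY.le hΓ)
    have : 0 ≤ Y * psi G Y w := by positivity
    have : 0 ≤ Y * sq G w := by positivity
    have : 0 ≤ Y * taint G B Y := by positivity
    have : (0:ℝ) ≤ G.card := Nat.cast_nonneg _
    calc _ ≤ cap Y * (2 * (Y * psi G Y w + Y * sq G w + Y * taint G B Y + pd G Y w + G.card)) :=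
          mul_le_mul_of_nonneg_left (by linarith) hc.le
      _ = _ := by ring
  have hbud0 : 0 ≤ budget G B Y w := by
    unfold budget; positivity
  -- the five steps
  have s1 := psi_scalar (s := drop G Y) (b := beta N Y) (b' := beta N (nextY G Y)) (e := eps N Y)
    hL hQ hd.drop_mul hd.drop_le_inv (by rw [nextY]; exact mb2) hb2 (by rw [nextY]; exact mb)
    (r := rho N Y) (p := cap Y) rfl hpY2 (rho_nonneg hN hY) hc.le he hψ hpd hT hbud0
    (hd.psi_step he)
  rw [show Y / (1 + drop G Y) = nextY G Y from rfl] at s1 mR mT mW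
  have hR0 : 0 ≤ √(nextY G Y) * cap (nextY G Y) :=
    mul_nonneg (Real.sqrt_nonneg _) (cap_pos hd.nextY_pos).le
  have hshrink : √Y * cap Y * (1 - 2 / 5 * drop G Y) ≤ √Y * cap Y :=
    mul_le_of_le_one_right (by positivity) (by linarith)
  have s2 : √(nextY G Y) * cap (nextY G Y) *
        ∑ t ∈ tri G, sq (G \ sides t) (nextW G B Y w t) ≤
      √Y * cap Y * (triNum G * sq G w - 4 / 5 * (Y * sq G w) + 1 / 10 ^ 40 * (Y * taint G B Y)
        + 1 / 10 ^ 5 * pd G Y w + 800 * G.card) := by
    refine le_trans (mul_le_mul_of_nonneg_left hd.sq_step hR0) ?_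
    have k1 : 0 ≤ triNum G * sq G w + Y * (-(9 / 10) * sq G w + 4 * cap Y ^ 2 * taint G B Y) +
        800 / Y * (pd G Y w + G.card * Y) := by
      refine le_trans ?_ hd.sq_step
      exact sum_nonneg fun t _ => sq_nonneg' _ _
    refine le_trans (mul_le_mul_of_nonneg_right (mR.trans hshrink) k1) ?_
    refine mul_le_mul_of_nonneg_left ?_ (by positivity)
    have k2 : 800 / Y * (pd G Y w + G.card * Y) = 800 / Y * pd G Y w + 800 * G.card := by
      field_simp
    have k3 : 800 / Y * pd G Y w ≤ 1 / 10 ^ 5 * pd G Y w := by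
      refine mul_le_mul_of_nonneg_right ?_ hpd
      rw [div_le_div_iff₀ hY (by norm_num)]; linarith
    have k4 := mul_le_mul_of_nonneg_right hc2 (mul_nonneg hY.le hΓ)
    have : 0 ≤ Y * sq G w := by positivity
    have : 0 ≤ Y * taint G B Y := by positivity
    linarith
  have s3 : √(nextY G Y) * cap (nextY G Y) *
        ∑ t ∈ tri G, taint (G \ sides t) (nextB G B Y t) (nextY G Y) ≤
      √Y * cap Y * (triNum G * taint G B Y - 7 / 10 * (Y * taint G B Y)
        + 10 ^ 9 * (Y * psi G Y w + Y * sq G w + pd G Y w + G.card)) := by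
    refine le_trans (mul_le_mul_of_nonneg_left hd.taint_step hR0) ?_
    refine le_trans (mul_le_mul_of_nonneg_right mR (by positivity)) ?_
    rw [mul_assoc]
    refine mul_le_mul_of_nonneg_left ?_ (by positivity)
    have k1 : (1 - 2 / 5 * drop G Y) * (10 ^ 9 * (bulk G B Y w + G.card)) ≤
        10 ^ 9 * (bulk G B Y w + G.card) :=
      mul_le_of_le_one_left (by positivity) (by linarith)
    have k2 : drop G Y * (triNum G * taint G B Y) = 2 * (Y * taint G B Y) := by
      rw [← mul_assoc, hd.drop_mul]; ring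
    have k3 := mul_le_mul_of_nonneg_right hc2 (mul_nonneg hY.le hΓ)
    have : 0 ≤ Y * taint G B Y := by positivity
    unfold bulk at k1 ⊢
    linarith
  have s4 : √(nextY G Y) / eps N (nextY G Y) *
        ∑ t ∈ tri G, tq (G \ sides t) (nextB G B Y t) (nextY G Y) (nextW G B Y w t) ≤
      √Y / eps N Y * (triNum G * tq G B Y w - 4 / 5 * (Y * tq G B Y w))
        + 10 ^ 15 * ((cycles G B).card * inv7 Y * Y / eps N Y)
        + 2 * 10 ^ 15 * (√Y * cap Y * Bu) := by
    have k0 : 0 ≤ √(nextY G Y) / eps N (nextY G Y) :=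
      div_nonneg (Real.sqrt_nonneg _) (eps_pos hN hd.nextY_pos).le
    have k1 := htq G B Y w hd
    refine le_trans (mul_le_mul_of_nonneg_left k1 k0) ?_
    refine le_trans (mul_le_mul_of_nonneg_right mT
      (le_trans (sum_nonneg fun t _ => tq_nonneg _ _ _ _) k1)) ?_
    have e1 : √Y / eps N Y * ((cycles G B).card / Y ^ 3) =
        (cycles G B).card * inv7 Y * Y / eps N Y := by
      rw [inv7]; field_simp; rw [Real.sq_sqrt hY.le]; ring
    have e2 : √Y / eps N Y * (cap Y * budget G B Y w) ≤ 2 * (√Y * cap Y * Bu) := by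
      calc √Y / eps N Y * (cap Y * budget G B Y w)
          = √Y * (cap Y / eps N Y) * budget G B Y w := by ring
        _ ≤ √Y * 1 * (2 * cap Y * Bu) := by
            gcongr
            rw [div_le_one he]; exact cap_le_eps hN hY
        _ = _ := by ring
    linarith
  have s5 : inv7 (nextY G Y) / eps N (nextY G Y) *
        ∑ t ∈ tri G, ((cycles (G \ sides t) (nextB G B Y t)).card : ℝ) ≤
      (triNum G - 3 / 20 * Y) * ((cycles G B).card * inv7 Y / eps N Y) := by
    have k := cycles_decay (G := G) (B := B) hY hd.good.flat (fun t => G \ sides t)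
      (fun t => nextB G B Y t) (fun _ _ => Subset.rfl) (fun t _ => subset_union_left)
    have k0 : 0 ≤ inv7 (nextY G Y) / eps N (nextY G Y) := by
      have := eps_pos hN hd.nextY_pos
      have := hd.nextY_pos
      unfold inv7; positivity
    refine le_trans (mul_le_mul_of_nonneg_left k k0) ?_
    refine le_trans (mul_le_mul_of_nonneg_right mW
      (le_trans (sum_nonneg fun t _ => Nat.cast_nonneg _) k)) ?_
    have e : (1 + 88 / 25 * drop G Y + 50 * drop G Y ^ 2) * (triNum G - (36 / 5 * Y - 28)) ≤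
        triNum G - 3 / 20 * Y := by
      have a1 : drop G Y * triNum G = 2 * Y := hd.drop_mul
      have a2 : drop G Y * Y ≤ 1 := by
        have := hd.drop_le_inv; rwa [le_div_iff₀ hY] at this
      have a3 : drop G Y ^ 2 * triNum G = 2 * (drop G Y * Y) := by
        rw [pow_two, mul_assoc, a1]; ring
      have a4 : 0 ≤ drop G Y * (36 / 5 * Y - 28) := mul_nonneg hs (by linarith)
      have a5 : 0 ≤ drop G Y ^ 2 * (36 / 5 * Y - 28) := mul_nonneg (sq_nonneg _) (by linarith)
      linarith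
    calc _ = (1 + 88 / 25 * drop G Y + 50 * drop G Y ^ 2) * (triNum G - (36 / 5 * Y - 28)) *
          ((cycles G B).card * inv7 Y / eps N Y) := by ring
      _ ≤ _ := mul_le_mul_of_nonneg_right e (by unfold inv7; positivity)
  -- combine
  have hsum : ∑ t ∈ tri G, pen N (G \ sides t) (nextB G B Y t) (nextY G Y) (nextW G B Y w t) =
      beta N (nextY G Y) * √(nextY G Y) * ∑ t ∈ tri G, psi (G \ sides t) (nextY G Y) (nextW G B Y w t)
      + 10 ^ 27 * (√(nextY G Y) * cap (nextY G Y) * ∑ t ∈ tri G, sq (G \ sides t) (nextW G B Y w t))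
      + 10 ^ 17 * (√(nextY G Y) * cap (nextY G Y) *
          ∑ t ∈ tri G, taint (G \ sides t) (nextB G B Y t) (nextY G Y))
      + 4 * (√(nextY G Y) / eps N (nextY G Y) *
          ∑ t ∈ tri G, tq (G \ sides t) (nextB G B Y t) (nextY G Y) (nextW G B Y w t))
      + 10 ^ 17 * (inv7 (nextY G Y) / eps N (nextY G Y) *
          ∑ t ∈ tri G, ((cycles (G \ sides t) (nextB G B Y t)).card : ℝ)) := by
    simp only [pen, mul_sum, ← sum_add_distrib]
    exact sum_congr rfl fun t _ => by ring
  rw [hsum, show pen N G B Y w = beta N Y * √Y * psi G Y w +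
    √Y * cap Y * (10 ^ 27 * sq G w + 10 ^ 17 * taint G B Y) + 4 / eps N Y * √Y * tq G B Y w +
    10 ^ 17 * inv7 Y / eps N Y * (cycles G B).card from rfl]
  have q1 := mul_le_mul_of_nonneg_left s2 (show (0:ℝ) ≤ 10 ^ 27 by positivity)
  have q2 := mul_le_mul_of_nonneg_left s3 (show (0:ℝ) ≤ 10 ^ 17 by positivity)
  have q3 := mul_le_mul_of_nonneg_left s4 (show (0:ℝ) ≤ 4 by positivity)
  have q4 := mul_le_mul_of_nonneg_left s5 (show (0:ℝ) ≤ 10 ^ 17 by positivity)
  have q5 : √Y * budget G B Y w ≤ 2 * (√Y * cap Y * Bu) :=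
    (mul_le_mul_of_nonneg_left hbud hy.le).trans_eq (by ring)
  have q6 : √Y * cap Y * pd G Y w ≤ 1 / 10 ^ 30 * (√Y * pd G Y w) := by
    calc √Y * cap Y * pd G Y w = cap Y * (√Y * pd G Y w) := by ring
      _ ≤ _ := mul_le_mul_of_nonneg_right hp (by positivity)
  have n1 : 0 ≤ √Y * cap Y * (Y * psi G Y w) := by positivity
  have n2 : 0 ≤ √Y * cap Y * (Y * sq G w) := by positivity
  have n3 : 0 ≤ √Y * cap Y * (Y * taint G B Y) := by positivity
  have n4 : 0 ≤ √Y * cap Y * (G.card : ℝ) := by positivity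
  have n5 : 0 ≤ √Y / eps N Y * (Y * tq G B Y w) := by positivity
  have n6 : 0 ≤ (cycles G B).card * inv7 Y * Y / eps N Y := by unfold inv7; positivity
  have n7 : 0 ≤ √Y * pd G Y w := by positivity
  have n8 : Y / 1000 * (beta N Y * √Y * psi G Y w) ≤ 3 / 1000 * (√Y * pd G Y w) := by
    calc Y / 1000 * (beta N Y * √Y * psi G Y w)
        = beta N Y / 1000 * (√Y * (Y * psi G Y w)) := by ring
      _ ≤ 3 / 1000 * (√Y * pd G Y w) := by gcongr
  simp only [hBu] at q3 q5
  linear_combination s1 + q1 + q2 + q3 + q4 + 3 * 10 ^ 11 * q5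
    + 100010000008000600000000000 * q6 + 899999999991999399999999998 * n1
    + (699999999991999399999999998 - 10 ^ 24) * n2 + (619993999999999999999999999999 / 10000000000000 - 10 ^ 14) * n3
    + 199199899999999991999400000000000 * n4 + (1 / 5 - 4 / 1000) * n5 + (11000000000000000 - 10 ^ 14) * n6
    + (4999499949999959997 / 5000000000000000000 - 503 / 1000) * n7 + n8


/-- The part of the penalty that carries a cap factor. -/
noncomputable def capPart (G B : Finset (Finset α)) (Y : ℝ) (w : Finset α → ℝ) : ℝ :=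
  √Y * cap Y * (10 ^ 27 * sq G w + 10 ^ 17 * taint G B Y)

/-- One dense step of the part with a cap factor. -/
theorem capPart_step (hd : Dense G B Y w) (hYN : Y ≤ N) (hp : cap Y ≤ 1 / 10 ^ 30) :
    ∑ t ∈ tri G, capPart (G \ sides t) (nextB G B Y t) (nextY G Y) (nextW G B Y w t)
        + 2 * Y * (√Y * cap Y) * sq G w + Y / 1000 * capPart G B Y w ≤
      triNum G * capPart G B Y w + 10 ^ 32 * (2 * (√Y * cap Y * G.card))
        + 10 ^ 28 * (√Y * cap Y * (Y * psi G Y w + pd G Y w)) := by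
  have hY := hd.pos
  have hN : 0 < N := hY.trans_le hYN
  have hc := cap_pos hY
  have hs := hd.drop_nonneg
  have hs1 := hd.drop_small
  have hQ := hd.triNum_pos
  have hL := hd.large
  obtain ⟨mb, mb2, mR, mT, mW⟩ := coef_moves hN hY hYN hp hs hs1
  obtain ⟨hb1, hb2⟩ := beta_range hN hY hYN hp
  obtain ⟨hbk, hpdle, hbψ, hbq⟩ := hd.bulk_parts
  have hψ := psi_nonneg G Y w
  have hq2 := sq_nonneg' G w
  have hΓ := taint_nonneg G B Y
  have hT := tq_nonneg G B Y w
  have hpd := hd.pd_nonneg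
  have hy : 0 < √Y := Real.sqrt_pos.2 hY
  have he := eps_pos hN hY
  have hYp := inv_le_cap_sq (show (1 : ℝ) ≤ Y by linarith)
  have hpY2 : 2 ≤ cap Y * Y := by
    rw [div_le_iff₀ hY] at hYp
    have : cap Y * (cap Y * Y) ≤ 1 / 10 ^ 30 * (cap Y * Y) :=
      mul_le_mul_of_nonneg_right hp (by positivity)
    linarith
  have hc2 : cap Y ^ 2 ≤ 1 / 10 ^ 50 := by
    refine (pow_le_pow_left₀ hc.le hp 2).trans ?_
    norm_num
  rw [show Y / (1 + drop G Y) = nextY G Y from rfl] at mR
  have hR0 : 0 ≤ √(nextY G Y) * cap (nextY G Y) :=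
    mul_nonneg (Real.sqrt_nonneg _) (cap_pos hd.nextY_pos).le
  have hshrink : √Y * cap Y * (1 - 2 / 5 * drop G Y) ≤ √Y * cap Y :=
    mul_le_of_le_one_right (by positivity) (by linarith)
  have s2 : √(nextY G Y) * cap (nextY G Y) *
        ∑ t ∈ tri G, sq (G \ sides t) (nextW G B Y w t) ≤
      √Y * cap Y * (triNum G * sq G w - 4 / 5 * (Y * sq G w) + 1 / 10 ^ 40 * (Y * taint G B Y)
        + 1 / 10 ^ 5 * pd G Y w + 800 * G.card) := by
    refine le_trans (mul_le_mul_of_nonneg_left hd.sq_step hR0) ?_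
    have k1 : 0 ≤ triNum G * sq G w + Y * (-(9 / 10) * sq G w + 4 * cap Y ^ 2 * taint G B Y) +
        800 / Y * (pd G Y w + G.card * Y) := by
      refine le_trans ?_ hd.sq_step
      exact sum_nonneg fun t _ => sq_nonneg' _ _
    refine le_trans (mul_le_mul_of_nonneg_right (mR.trans hshrink) k1) ?_
    refine mul_le_mul_of_nonneg_left ?_ (by positivity)
    have k2 : 800 / Y * (pd G Y w + G.card * Y) = 800 / Y * pd G Y w + 800 * G.card := by
      field_simp
    have k3 : 800 / Y * pd G Y w ≤ 1 / 10 ^ 5 * pd G Y w := by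
      refine mul_le_mul_of_nonneg_right ?_ hpd
      rw [div_le_div_iff₀ hY (by norm_num)]; linarith
    have k4 := mul_le_mul_of_nonneg_right hc2 (mul_nonneg hY.le hΓ)
    have : 0 ≤ Y * sq G w := by positivity
    have : 0 ≤ Y * taint G B Y := by positivity
    linarith
  have s3 : √(nextY G Y) * cap (nextY G Y) *
        ∑ t ∈ tri G, taint (G \ sides t) (nextB G B Y t) (nextY G Y) ≤
      √Y * cap Y * (triNum G * taint G B Y - 7 / 10 * (Y * taint G B Y)
        + 10 ^ 9 * (Y * psi G Y w + Y * sq G w + pd G Y w + G.card)) := by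
    refine le_trans (mul_le_mul_of_nonneg_left hd.taint_step hR0) ?_
    refine le_trans (mul_le_mul_of_nonneg_right mR (by positivity)) ?_
    rw [mul_assoc]
    refine mul_le_mul_of_nonneg_left ?_ (by positivity)
    have k1 : (1 - 2 / 5 * drop G Y) * (10 ^ 9 * (bulk G B Y w + G.card)) ≤
        10 ^ 9 * (bulk G B Y w + G.card) :=
      mul_le_of_le_one_left (by positivity) (by linarith)
    have k2 : drop G Y * (triNum G * taint G B Y) = 2 * (Y * taint G B Y) := by
      rw [← mul_assoc, hd.drop_mul]; ring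
    have k3 := mul_le_mul_of_nonneg_right hc2 (mul_nonneg hY.le hΓ)
    have : 0 ≤ Y * taint G B Y := by positivity
    unfold bulk at k1 ⊢
    linarith
  have n1 : 0 ≤ √Y * cap Y * (Y * psi G Y w) := by positivity
  have n2 : 0 ≤ √Y * cap Y * (Y * sq G w) := by positivity
  have n3 : 0 ≤ √Y * cap Y * (Y * taint G B Y) := by positivity
  have n4 : 0 ≤ √Y * cap Y * (G.card : ℝ) := by positivity
  have n7 : 0 ≤ √Y * cap Y * pd G Y w := by positivity
  have hsum : ∑ t ∈ tri G, capPart (G \ sides t) (nextB G B Y t) (nextY G Y) (nextW G B Y w t) =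
      10 ^ 27 * (√(nextY G Y) * cap (nextY G Y) * ∑ t ∈ tri G, sq (G \ sides t) (nextW G B Y w t))
      + 10 ^ 17 * (√(nextY G Y) * cap (nextY G Y) *
          ∑ t ∈ tri G, taint (G \ sides t) (nextB G B Y t) (nextY G Y)) := by
    simp only [capPart, mul_sum, ← sum_add_distrib]
    exact sum_congr rfl fun t _ => by ring
  rw [hsum, capPart]
  have q1 := mul_le_mul_of_nonneg_left s2 (show (0:ℝ) ≤ 10 ^ 27 by positivity)
  have q2 := mul_le_mul_of_nonneg_left s3 (show (0:ℝ) ≤ 10 ^ 17 by positivity)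
  linarith

end Vale.Agent.P046.Sharp
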